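import Vale.Agent.P257.G.Chain
import Vale.Agent.P257.N.CountG2
import Vale.Agent.P257.N.Num

/-! The numerical facts for the chain of thresholds. -/

namespace Vale.Agent.P257.G

open Vale.Agent.P257.Q.PC Vale.Agent.P257.N Vale.Agent.P257.X

theorem U1_eq : U1 = U7 := by decide

theorem U0_sub {x : ℕ × ℕ} (h : x ∈ U0) : x ∈ U7 ∧ x ≠ (3, 0) := by
  revert x
  decide

theorem cnt {p : ℕ} (hp : 11 ≤ p) : Cnt p where
  V := (num hp).V
  M1 := fun L hL => M1 (by omega) hL
  M5 := fun L hL => M5 (by omega) hL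
  M6 := fun L hL h => M6 hp hL fun x hx => U1_eq ▸ h x hx
  M8 := fun L hL h => M8 hp hL (fun x hx => (U0_sub (h x hx)).1) fun hx => (U0_sub (h _ hx)).2 rfl
  M9 := fun L hL h => M9 hp hL fun x hx => U1_eq ▸ h x hx
  M10 := fun L hL h N hN => M10 hp hL (fun x hx => (U0_sub (h x hx)).1)
    (fun hx => (U0_sub (h _ hx)).2 rfl) hN

end Vale.Agent.P257.G
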