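import Vale.Agent.P257.G.Change
import Vale.Agent.P257.G.Cnt
import Vale.Agent.P257.X.TowerOut

/-! The instance of `Sys`, and `G2` from `C1` and `C2`. -/

namespace Vale.Agent.P257.G

open MvPolynomial Finset Vale.Agent.P257.Q.PC Vale.Agent.P257.X Vale.Agent.P257.B

variable {p : ℕ} [Fact p.Prime]

/-- The top of the tower is acyclic. -/
def Acyc (p : ℕ) [Fact p.Prime] : Prop :=
  ∀ m s N, ¬(s = 0 ∧ N = 0) → ∀ h : Ok (fun _ => 0), (KI p m (fun _ => 0) h).Ex s N

theorem lift_zero : lift (fun _ => 0) = fun _ => 0 := by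
  funext a
  simp [lift]

theorem EI_zero (hac : Acyc p) {m s : ℕ} {N : ℤ} (h : ¬(s = 0 ∧ N = 0)) :
    EI p m (fun _ => 0) s N := by
  have key : ∀ I (hI : Ok I), I = (fun _ => 0) → (KI p m I hI).Ex s N := by
    rintro I hI rfl
    exact hac m s N h hI
  exact fun hI => key _ hI lift_zero

theorem EI_count (hac : Acyc p) : ∀ (k : ℕ) (I : ℕ → ℕ), ∑ n ∈ range 5, I n = k → Val I →
    (∀ n, 5 ≤ n → I n = 0) → ∀ (s N : ℕ), (∀ L : List (ℕ × ℕ), L.Nodup →
      (∀ x ∈ L, x.2 < I x.1) → ¬ Vale.Agent.P257.N.Mon p L s N) → EI p 5 I s N := by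
  intro k
  induction k with
  | zero =>
    intro I hk hI h5 s N hM
    have h0 : I = fun _ => 0 := by
      funext n
      rcases Nat.lt_or_ge n 5 with h | h
      · exact (Finset.sum_eq_zero_iff.1 hk) n (mem_range.2 h)
      · exact h5 n h
    rw [h0]
    refine EI_zero hac ?_
    rintro ⟨rfl, hN⟩
    refine hM [] List.nodup_nil (by simp) ⟨rfl, ?_⟩
    exact_mod_cast hN
  | succ k ih =>
    intro I hk hI h5 s N hM
    -- the smallest index
    have hex : ∃ n, 0 < I n := by
      by_contra hne
      have : ∑ n ∈ range 5, I n = 0 := Finset.sum_eq_zero fun n _ => by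
        by_contra h
        exact hne ⟨n, Nat.pos_of_ne_zero h⟩
      omega
    obtain ⟨n, hn, hmin⟩ : ∃ n, 0 < I n ∧ ∀ a, a < n → I a = 0 := by
      classical
      refine ⟨Nat.find hex, Nat.find_spec hex, fun a ha => ?_⟩
      have := Nat.find_min hex ha
      omega
    have hn5 : n < 5 := by
      by_contra h
      have := h5 n (by omega)
      omega
    set I' : ℕ → ℕ := Function.update I n (I n - 1) with hI'
    have e1 : I' n = I n - 1 := Function.update_self ..
    have e2 : ∀ a, a ≠ n → I' a = I a := fun a ha => Function.update_of_ne ha ..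
    have hup : G.up I' n = I := by
      funext a
      by_cases ha : a = n
      · subst ha
        rw [up_self, e1]; omega
      · rw [up_ne _ ha, e2 a ha]
    have hV : Val I' := by
      intro a b hab
      have hab' := hI a b hab
      by_cases ha : a = n
      · subst ha
        by_cases hb : b = a
        · rw [hb]
        · rw [e1, e2 b hb]; omega
      · by_cases hb : b = n
        · subst hb
          rw [e2 a ha, e1, hmin a (by omega)]
          omega
        · rwa [e2 a ha, e2 b hb]
    have hA : Adm' I' n := by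
      intro n' hn'
      have := hI n n' hn'.le
      rw [e1, e2 n' (by omega)]
      omega
    have hk' : ∑ n ∈ range 5, I' n = k := by
      have h1 := Finset.sum_erase_add (range 5) I (mem_range.2 hn5)
      have h2 := Finset.sum_erase_add (range 5) I' (mem_range.2 hn5)
      have h3 : ∑ x ∈ (range 5).erase n, I' x = ∑ x ∈ (range 5).erase n, I x :=
        Finset.sum_congr rfl fun x hx => e2 x (Finset.ne_of_mem_erase hx)
      rw [h3, e1] at h2
      omega
    have h5' : ∀ a, 5 ≤ a → I' a = 0 := fun a ha => by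
      rw [e2 a (by omega)]; exact h5 a ha
    rw [← hup]
    refine EI_step I' n s N hV hA hn5 fun s' ε j hε hs => ?_
    rcases lt_or_ge ((N : ℤ) - (ε + p * j) * ((p : ℤ) ^ I' n * wt p n)) 0 with hneg | hpos
    · exact EI_neg _ hneg
    · obtain ⟨N', hN'⟩ := Int.eq_ofNat_of_zero_le hpos
      rw [hN']
      refine ih I' hk' hV h5' s' N' fun L hL hlt hM' => ?_
      refine hM ((n, I' n) :: L) (List.nodup_cons.2 ⟨fun h => ?_, hL⟩) ?_ ?_
      · exact absurd (hlt _ h) (lt_irrefl _)
      · intro x hx
        rw [List.mem_cons] at hx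
        rcases hx with rfl | hx
        · dsimp only
          omega
        · have := hlt x hx
          by_cases h1 : x.1 = n
          · rw [h1] at this ⊢; omega
          · rwa [e2 _ h1] at this
      · refine ⟨ε, j, s', N', hε, by omega, ?_, hM'⟩
        rw [Vale.Agent.P257.N.lw]
        have h6 : (N : ℤ) = (((ε + p * j) * (p ^ I' n * wt p n) + N' : ℕ) : ℤ) := by
          push_cast
          have h7 : (N : ℤ) - (ε + p * j) * ((p : ℤ) ^ I' n * wt p n) = N' := hN'
          linarith
        exact_mod_cast h6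

theorem sys (hac : Acyc p) : Sys p (EI p 5) where
  step I n s N hI hn h5 H := EI_step I n s N hI hn h5 fun s' ε j hε hs => by
    rcases lt_or_ge (N - (ε + p * j) * ((p : ℤ) ^ I n * wt p n)) 0 with hneg | hpos
    · exact EI_neg _ hneg
    · exact H s' ε j hε hs hpos
  count I s N hI h5 hM := EI_count hac _ I rfl hI h5 s N hM

/-- The field `G2` from the two statements on the finite Hopf algebra of profile `(3, 2, 1)`. -/
theorem G2_of_C (hp : 11 ≤ p) (hac : Acyc p)
    (C1 : EI p 3 A0 (2 * p - 3) (1 - p - p ^ 2 - p ^ 3 + p ^ 4))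
    (C2 : EI p 3 A0 (2 * p - 4) (1 - p - 2 * p ^ 2 - 2 * p ^ 3 + p ^ 4)) : X.G2 p := by
  refine G2_of (by omega) ((towerOut p).van _ _ (cnt hp).M1) ?_
  exact chain (sys hac) (by omega) (cnt hp) (EI_change (by norm_num) hac C1)
    (EI_change (by norm_num) hac C2)

end Vale.Agent.P257.G
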