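import Vale.Agent.P257.B.Ex
import Vale.Agent.P257.G.SysInst

/-! `G2` from `C1` and `C2` in the notation of `B`. -/

namespace Vale.Agent.P257.G

open MvPolynomial Finset Vale.Agent.P257.Q.PC Vale.Agent.P257.X Vale.Agent.P257.B

variable {p : ℕ} [Fact p.Prime]

theorem acyc : Acyc p := fun _ s N h _ => ex_top (by
  by_contra h'
  push Not at h'
  exact h h')

theorem lift_A0 : lift A0 = pf 3 2 1 := by
  funext a
  unfold lift A0 pf
  split_ifs <;> omega

theorem EI_pf {m s : ℕ} {N : ℤ} {hI : Ok (pf 3 2 1)} (h : (KI p m (pf 3 2 1) hI).Ex s N) :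
    EI p m A0 s N := by
  have key : ∀ I (hI' : Ok I), I = pf 3 2 1 → (KI p m I hI').Ex s N := by
    rintro I hI' rfl
    exact h
  exact fun hI' => key _ hI' lift_A0

/-- The field `G2` from the two statements on the finite Hopf algebra of profile `(3, 2, 1)`. -/
theorem G2_of_pf (hp : 11 ≤ p) {hI : Ok (pf 3 2 1)}
    (C1 : (KI p 3 (pf 3 2 1) hI).Ex (2 * p - 3) (1 - p - p ^ 2 - p ^ 3 + p ^ 4))
    (C2 : (KI p 3 (pf 3 2 1) hI).Ex (2 * p - 4) (1 - p - 2 * p ^ 2 - 2 * p ^ 3 + p ^ 4)) :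
    X.G2 p :=
  G2_of_C hp acyc (EI_pf C1) (EI_pf C2)

end Vale.Agent.P257.G
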