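import Vale.Agent.P257.B.C12
import Vale.Agent.P257.G.Fin

/-! The field `G2` from the statements `STAR k`. -/

namespace Vale.Agent.P257.G

open Vale.Agent.P257.B

variable {p : ℕ} [Fact p.Prime]

theorem G2_of_STAR (hp : 11 ≤ p) (h : ∀ k, 1 ≤ k → k ≤ p - 2 → STAR p k) : X.G2 p :=
  G2_of_pf hp (C12 hp h).1 (C12 hp h).2

end Vale.Agent.P257.G
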