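import Vale.Agent.P257.Q.PDefs
import Vale.Agent.P257.X.Gen

/-! Left and right multiplication by the primitive element `t_1 ^ (p ^ k)` in the cobar complex of
`P`, and the description of the cochains by homogeneity and supports. -/

namespace Vale.Agent.P257.G

open MvPolynomial Finset Vale.Agent.P257.Q.PC Vale.Agent.P257.X

variable {p : ℕ} [Fact p.Prime]

/-- The weights. -/
def wp (p : ℕ) (x : ℕ × ℕ) : ℕ := wt p x.2

theorem mem_Ch {s N : ℕ} {z : KP p} : z ∈ Ch p s N ↔
    IsWeightedHomogeneous (wp p) z N ∧ z ∈ supported (ZMod p) {x : ℕ × ℕ | x.1 < s} := by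
  constructor
  · intro hz
    refine Submodule.span_induction (p := fun z _ => IsWeightedHomogeneous (wp p) z N ∧
      z ∈ supported (ZMod p) {x : ℕ × ℕ | x.1 < s}) ?_ ?_ ?_ ?_ hz
    · rintro x ⟨e, he, hN, rfl⟩
      refine ⟨isWeightedHomogeneous_monomial _ _ _ ?_, monomial_mem_supported fun x hx => he x hx⟩
      rw [Finsupp.weight_apply, ← hN]
      rfl
    · exact ⟨isWeightedHomogeneous_zero _ _ _, zero_mem _⟩
    · rintro x y - - ⟨h1, h2⟩ ⟨h3, h4⟩
      exact ⟨h1.add h3, add_mem h2 h4⟩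
    · rintro a x - ⟨h1, h2⟩
      exact ⟨(weightedHomogeneousSubmodule (ZMod p) (wp p) N).smul_mem a h1,
        Subalgebra.smul_mem _ h2 a⟩
  · rintro ⟨h1, h2⟩
    rw [mem_supported_iff] at h2
    rw [z.as_sum]
    refine Submodule.sum_mem _ fun u hu => ?_
    rw [show (monomial u (coeff u z) : KP p) = coeff u z • monomial u 1 by
      rw [smul_monomial, smul_eq_mul, mul_one]]
    refine Submodule.smul_mem _ _ (Submodule.subset_span ⟨u, h2 u hu, ?_, rfl⟩)
    have := h1 (mem_support_iff.1 hu)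
    rw [Finsupp.weight_apply] at this
    exact this

theorem cob_apply (s : ℕ) (z : KP p) : cob p s z = sh p z +
    ∑ i ∈ range s, (-1 : ZMod p) ^ (i + 1) • δ p i z + (-1 : ZMod p) ^ (s + 1) • z := by
  simp only [cob, LinearMap.add_apply, LinearMap.sum_apply, LinearMap.smul_apply,
    LinearMap.id_apply, AlgHom.toLinearMap_apply]

/-- The primitive element in block `j`. -/
noncomputable def xi (p k j : ℕ) : KP p := X (j, 0) ^ p ^ k

theorem δ_xi (k i j : ℕ) : δ p i (xi p k j) = if j < i then xi p k j else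
    if j = i then xi p k i + xi p k (i + 1) else xi p k (j + 1) := by
  rw [xi, map_pow, δ, aeval_X]
  dsimp only
  split_ifs with h1 h2
  · rfl
  · rw [Finset.sum_range_succ, Finset.sum_range_one]
    simp only [tt, pow_zero, pow_one, if_true, one_mul, zero_add, Nat.sub_zero, Nat.sub_self,
      one_ne_zero, if_false, one_pow, mul_one]
    rw [add_pow_char_pow, add_comm]
    rfl
  · rfl

/-- The sum over the blocks. -/
noncomputable def Xs (p k s : ℕ) : KP p := ∑ j ∈ range s, xi p k j

theorem δ_Xs (k : ℕ) {i s : ℕ} (hi : i < s) : δ p i (Xs p k s) = Xs p k (s + 1) := by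
  rw [Xs, map_sum, Xs]
  induction s with
  | zero => omega
  | succ s ih =>
    rw [Finset.sum_range_succ, Finset.sum_range_succ _ (s + 1), δ_xi]
    rcases Nat.lt_or_ge i s with h | h
    · rw [ih h, if_neg (by omega), if_neg (by omega)]
    · obtain rfl : i = s := by omega
      rw [if_neg (lt_irrefl _), if_pos rfl, Finset.sum_range_succ, ← add_assoc]
      congr 2
      refine Finset.sum_congr rfl fun j hj => ?_
      rw [mem_range] at hj
      rw [δ_xi, if_pos hj]

omit [Fact p.Prime] in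
theorem sh_Xs (k s : ℕ) : sh p (Xs p k s) + xi p k 0 = Xs p k (s + 1) := by
  rw [Xs, map_sum, Xs, Finset.sum_range_succ']
  congr 1
  refine Finset.sum_congr rfl fun j _ => ?_
  rw [xi, map_pow, sh, rename_X]
  rfl

theorem switch_aux (k s : ℕ) (z : KP p) : cob p s (Xs p k s * z) =
    Xs p k (s + 1) * cob p s z - xi p k 0 * sh p z - (-1 : ZMod p) ^ (s + 1) • (xi p k s * z) := by
  rw [cob_apply, cob_apply, map_mul]
  have h1 : ∑ i ∈ range s, (-1 : ZMod p) ^ (i + 1) • δ p i (Xs p k s * z) =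
      Xs p k (s + 1) * ∑ i ∈ range s, (-1 : ZMod p) ^ (i + 1) • δ p i z := by
    rw [Finset.mul_sum]
    refine Finset.sum_congr rfl fun i hi => ?_
    rw [map_mul, δ_Xs k (mem_range.1 hi), mul_smul_comm]
  have h2 : sh p (Xs p k s) = Xs p k (s + 1) - xi p k 0 := eq_sub_of_add_eq (sh_Xs k s)
  have h3 : Xs p k s = Xs p k (s + 1) - xi p k s := by
    rw [Xs, Xs, Finset.sum_range_succ, add_sub_cancel_right]
  rw [h1, h2, h3, mul_add, mul_add, mul_smul_comm, sub_mul, sub_mul, smul_sub]
  abel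

omit [Fact p.Prime] in
theorem xi_hom (k j : ℕ) : IsWeightedHomogeneous (wp p) (xi p k j) (p ^ k) := by
  have h := (isWeightedHomogeneous_X (ZMod p) (wp p) (j, 0)).pow (p ^ k)
  rw [wp, wt] at h
  simpa [xi] using h

/-- Left and right multiplication by `t_1 ^ (p ^ k)` agree up to sign on cohomology. -/
theorem switch {k s N : ℕ} {z : KP p} (hz : z ∈ Zc p s N) :
    xi p k 0 * sh p z + (-1 : ZMod p) ^ (s + 1) • (z * xi p k s) ∈ Bc p (s + 1) (N + p ^ k) := by
  have hz2 : cob p s z = 0 := hz.2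
  obtain ⟨h1, h2⟩ := mem_Ch.1 (Submodule.mem_inf.1 hz).1
  refine ⟨-(Xs p k s * z), ?_, ?_⟩
  · refine Submodule.neg_mem _ (mem_Ch.2 ⟨?_, ?_⟩)
    · rw [add_comm]
      exact (IsWeightedHomogeneous.sum _ _ _ fun j _ => xi_hom k j).mul h1
    · exact mul_mem (supported_sum _ _ fun j hj => pow_mem (X_mem_supported.2 (by
        simpa using hj)) _) h2
  · rw [map_neg, switch_aux, hz2, mul_zero, mul_comm z]
    abel

end Vale.Agent.P257.G
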