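import Vale.Agent.P257.X.Iface

/-! The chain of thresholds from `(3,2,1,0,...)` to `(3,4,3,2,1,0,...)`. -/

namespace Vale.Agent.P257.G

open Vale.Agent.P257.Q.PC Vale.Agent.P257.N Vale.Agent.P257.X

/-- Valid thresholds; index `n` is `t_(n+1)`. -/
def Val (I : ℕ → ℕ) : Prop := ∀ a b, a ≤ b → I a + a ≤ I b + b

/-- The threshold `n` can be raised. -/
def Adm' (I : ℕ → ℕ) (n : ℕ) : Prop := ∀ n', n < n' → I n + 1 + n ≤ I n' + n'

/-- Raise the threshold `n`. -/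
def up (I : ℕ → ℕ) (n : ℕ) : ℕ → ℕ := Function.update I n (I n + 1)

theorem up_self (I : ℕ → ℕ) (n : ℕ) : up I n n = I n + 1 := Function.update_self ..

theorem up_ne (I : ℕ → ℕ) {n a : ℕ} (h : a ≠ n) : up I n a = I a := Function.update_of_ne h ..

theorem Adm'.val {I : ℕ → ℕ} {n : ℕ} (h : Adm' I n) (hI : Val I) : Val (up I n) := by
  intro a b hab
  by_cases h1 : a = n
  · subst h1
    by_cases h2 : b = a
    · rw [h2]
    · rw [up_self, up_ne _ h2]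
      exact h b (by omega)
  · rw [up_ne _ h1]
    by_cases h2 : b = n
    · subst h2
      rw [up_self]
      have := hI a b hab
      omega
    · rw [up_ne _ h2]
      exact hI a b hab

/-- The exactness statements of the tower of comodules `D_I`. -/
structure Sys (p : ℕ) (E : (ℕ → ℕ) → ℕ → ℤ → Prop) : Prop where
  step : ∀ I n s N, Val I → Adm' I n → n < 5 → (∀ s' ε j : ℕ, ε ≤ 1 → s = s' + ε + 2 * j →
    0 ≤ N - (ε + p * j) * ((p : ℤ) ^ I n * wt p n) →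
      E I s' (N - (ε + p * j) * ((p : ℤ) ^ I n * wt p n))) → E (up I n) s N
  count : ∀ I s (N : ℕ), Val I → (∀ n, 5 ≤ n → I n = 0) →
    (∀ L : List (ℕ × ℕ), L.Nodup → (∀ x ∈ L, x.2 < I x.1) → ¬ Mon p L s N) → E I s N

/-- The six letters of the sub Hopf algebra. -/
def U0 : Finset (ℕ × ℕ) := {(0, 0), (0, 1), (0, 2), (1, 0), (1, 1), (2, 0)}

/-- The seven letters. -/
def U1 : Finset (ℕ × ℕ) := insert (3, 0) U0

/-- The numerical facts for the chain. -/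
structure Cnt (p : ℕ) : Prop where
  V : ∀ s N, 2 * N + p < p * s → NM p s N
  M1 : NM p (2 * p - 2) (2 + p + p ^ 2)
  M5 : NM p (2 * p - 3) (2 + p + p ^ 2)
  M6 : ∀ L : List (ℕ × ℕ), L.Nodup → (∀ x ∈ L, x ∈ U1) →
    ¬ Mon p L (2 * p - 1) (2 + p + p ^ 2 + p ^ 3 + p ^ 4)
  M8 : ∀ L : List (ℕ × ℕ), L.Nodup → (∀ x ∈ L, x ∈ U0) → ¬ Mon p L (2 * p - 2) (2 + p ^ 4)
  M9 : ∀ L : List (ℕ × ℕ), L.Nodup → (∀ x ∈ L, x ∈ U1) → ¬ Mon p L (2 * p - 2) (2 + p + p ^ 4)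
  M10 : ∀ L : List (ℕ × ℕ), L.Nodup → (∀ x ∈ L, x ∈ U0) →
    ∀ N, N + p ^ 2 + p ^ 3 = 2 + p ^ 4 → ¬ Mon p L (2 * p - 3) N

/-- The thresholds of the finite sub Hopf algebra. -/
def A0 : ℕ → ℕ := fun n => 3 - n

def A1 : ℕ → ℕ := up A0 3
def A2 : ℕ → ℕ := up A1 2
def A3 : ℕ → ℕ := up A2 1
def A4 : ℕ → ℕ := up A3 4
def A5 : ℕ → ℕ := up A4 3
def A6 : ℕ → ℕ := up A5 2
def A7 : ℕ → ℕ := up A6 1

theorem A0_val : Val A0 := fun a b h => by simp only [A0]; omega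

theorem A0_fin : ∀ n, 5 ≤ n → A0 n = 0 := fun n h => by simp only [A0]; omega

theorem A1_eq (n : ℕ) : A1 n = if n = 3 then 1 else 3 - n := by
  rw [A1]
  split_ifs with h
  · subst h; rw [up_self]; rfl
  · rw [up_ne _ h]; rfl

theorem A1_adm : Adm' A0 3 := fun n h => by simp only [A0]; omega

theorem A1_val : Val A1 := A1_adm.val A0_val

theorem A1_fin : ∀ n, 5 ≤ n → A1 n = 0 := fun n h => by rw [A1_eq]; split_ifs <;> omega

theorem A2_eq (n : ℕ) : A2 n = if n = 2 then 2 else if n = 3 then 1 else 3 - n := by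
  rw [A2]
  split_ifs with h h'
  · subst h; rw [up_self]; rfl
  · rw [up_ne _ h, A1_eq, if_pos h']
  · rw [up_ne _ h, A1_eq, if_neg h']

theorem A2_adm : Adm' A1 2 := fun n h => by
  rw [A1_eq, A1_eq, if_neg (by omega)]; split_ifs <;> omega

theorem A2_val : Val A2 := A2_adm.val A1_val

theorem A2_fin : ∀ n, 5 ≤ n → A2 n = 0 := fun n h => by rw [A2_eq]; split_ifs <;> omega

theorem A3_eq (n : ℕ) : A3 n = if n = 1 then 3 else if n = 2 then 2 else if n = 3 then 1 else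
    3 - n := by
  rw [A3]
  split_ifs with h h' h''
  · subst h; rw [up_self, A2_eq]; rfl
  · rw [up_ne _ h, A2_eq, if_pos h']
  · rw [up_ne _ h, A2_eq, if_neg h', if_pos h'']
  · rw [up_ne _ h, A2_eq, if_neg h', if_neg h'']

theorem A3_adm : Adm' A2 1 := fun n h => by
  rw [A2_eq, A2_eq, if_neg (by omega), if_neg (by omega)]; split_ifs <;> omega

theorem A3_val : Val A3 := A3_adm.val A2_val

theorem A3_fin : ∀ n, 5 ≤ n → A3 n = 0 := fun n h => by rw [A3_eq]; split_ifs <;> omega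

theorem A4_eq (n : ℕ) : A4 n = if n = 4 then 1 else if n = 1 then 3 else if n = 2 then 2 else
    if n = 3 then 1 else 3 - n := by
  rw [A4]
  by_cases h : n = 4
  · subst h; rw [up_self, A3_eq]; rfl
  · rw [up_ne _ h, A3_eq, if_neg h]

theorem A4_adm : Adm' A3 4 := fun n h => by
  rw [A3_eq, A3_eq]; split_ifs <;> omega

theorem A4_val : Val A4 := A4_adm.val A3_val

theorem A4_fin : ∀ n, 5 ≤ n → A4 n = 0 := fun n h => by rw [A4_eq]; split_ifs <;> omega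

theorem A5_eq (n : ℕ) : A5 n = if n = 3 then 2 else if n = 4 then 1 else if n = 1 then 3 else
    if n = 2 then 2 else 3 - n := by
  rw [A5]
  by_cases h : n = 3
  · subst h; rw [up_self, A4_eq]; rfl
  · rw [up_ne _ h, A4_eq, if_neg h]; split_ifs <;> omega

theorem A5_adm : Adm' A4 3 := fun n h => by
  rw [A4_eq, A4_eq]; split_ifs <;> omega

theorem A5_val : Val A5 := A5_adm.val A4_val

theorem A5_fin : ∀ n, 5 ≤ n → A5 n = 0 := fun n h => by rw [A5_eq]; split_ifs <;> omega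

theorem A6_eq (n : ℕ) : A6 n = if n = 2 then 3 else if n = 3 then 2 else if n = 4 then 1 else
    if n = 1 then 3 else 3 - n := by
  rw [A6]
  by_cases h : n = 2
  · subst h; rw [up_self, A5_eq]; rfl
  · rw [up_ne _ h, A5_eq, if_neg h]; split_ifs <;> omega

theorem A6_adm : Adm' A5 2 := fun n h => by
  rw [A5_eq, A5_eq]; split_ifs <;> omega

theorem A6_val : Val A6 := A6_adm.val A5_val

theorem A6_fin : ∀ n, 5 ≤ n → A6 n = 0 := fun n h => by rw [A6_eq]; split_ifs <;> omega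

theorem A7_eq (n : ℕ) : A7 n = if n = 1 then 4 else if n = 2 then 3 else if n = 3 then 2 else
    if n = 4 then 1 else 3 - n := by
  rw [A7]
  by_cases h : n = 1
  · subst h; rw [up_self, A6_eq]; rfl
  · rw [up_ne _ h, A6_eq, if_neg h]; split_ifs <;> omega

theorem A7_adm : Adm' A6 1 := fun n h => by
  rw [A6_eq, A6_eq]; split_ifs <;> omega

theorem A7_val : Val A7 := A7_adm.val A6_val

theorem A7_fin : ∀ n, 5 ≤ n → A7 n = 0 := fun n h => by rw [A7_eq]; split_ifs <;> omega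

theorem mem_U0_of {x : ℕ × ℕ} (h : x.2 < A0 x.1) : x ∈ U0 := by
  obtain ⟨i, j⟩ := x
  simp only [A0] at h
  simp only [U0, Finset.mem_insert, Finset.mem_singleton, Prod.mk.injEq]
  omega

theorem mem_U1_of {x : ℕ × ℕ} (h : x.2 < A1 x.1) : x ∈ U1 := by
  obtain ⟨i, j⟩ := x
  rw [A1_eq] at h
  dsimp only at h
  simp only [U1, U0, Finset.mem_insert, Finset.mem_singleton, Prod.mk.injEq]
  split_ifs at h <;> omega

section Chain

variable {p : ℕ} {E : (ℕ → ℕ) → ℕ → ℤ → Prop}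

theorem cast_E {I : ℕ → ℕ} {s s' : ℕ} {N N' : ℤ} (h : E I s N) (hs : s = s') (hN : N = N') :
    E I s' N' := by subst hs; subst hN; exact h

theorem j_zero {q e N : ℤ} {ε j : ℕ} (hq : 0 ≤ q) (he : 0 ≤ e) (h : 0 ≤ N - (ε + q * j) * e)
    (hlt : N < q * e) : j = 0 := by
  by_contra hj
  have h1 : (1 : ℤ) ≤ j := by exact_mod_cast Nat.one_le_iff_ne_zero.2 hj
  have h2 : 0 ≤ q * e := mul_nonneg hq he
  have h3 : q * e ≤ (ε + q * j) * e := by
    have : 0 ≤ (ε : ℤ) * e := mul_nonneg (by positivity) he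
    nlinarith
  linarith

theorem j_one {q e N : ℤ} {ε j : ℕ} (hq : 0 ≤ q) (he : 0 ≤ e) (h : 0 ≤ N - (ε + q * j) * e)
    (hlt : N < q * e + e) : j = 0 ∨ (j = 1 ∧ ε = 0) ∨ (2 ≤ j ∧ 2 * (q * e) ≤ N) := by
  have h2 : 0 ≤ q * e := mul_nonneg hq he
  rcases Nat.lt_or_ge j 2 with hj | hj
  · rcases Nat.lt_or_ge j 1 with hj1 | hj1
    · left; omega
    · right; left
      obtain rfl : j = 1 := by omega
      refine ⟨rfl, ?_⟩
      by_contra hε
      have h1 : (1 : ℤ) ≤ ε := by exact_mod_cast Nat.one_le_iff_ne_zero.2 hε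
      push_cast at h
      nlinarith
  · right; right
    refine ⟨hj, ?_⟩
    have h1 : (2 : ℤ) ≤ j := by exact_mod_cast hj
    have : 0 ≤ (ε : ℤ) * e := mul_nonneg (by positivity) he
    nlinarith

theorem w1 : (wt p 1 : ℤ) = 1 + p := by simp [wt, Finset.sum_range_succ]

theorem w2 : (wt p 2 : ℤ) = 1 + p + p ^ 2 := by simp [wt, Finset.sum_range_succ]

theorem w3 : (wt p 3 : ℤ) = 1 + p + p ^ 2 + p ^ 3 := by simp [wt, Finset.sum_range_succ]

theorem w4 : (wt p 4 : ℤ) = 1 + p + p ^ 2 + p ^ 3 + p ^ 4 := by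
  simp [wt, Finset.sum_range_succ]

theorem pows (hp : 5 ≤ p) : (5 : ℤ) ≤ p ∧ 5 * (p : ℤ) ≤ (p : ℤ) ^ 2 ∧
    5 * (p : ℤ) ^ 2 ≤ (p : ℤ) ^ 3 ∧ 5 * (p : ℤ) ^ 3 ≤ (p : ℤ) ^ 4 ∧
    5 * (p : ℤ) ^ 4 ≤ (p : ℤ) ^ 5 := by
  have q0 : (5 : ℤ) ≤ p := by exact_mod_cast hp
  have h : ∀ k, 5 * (p : ℤ) ^ k ≤ (p : ℤ) ^ (k + 1) := fun k => by
    rw [pow_succ]
    have := pow_nonneg (by linarith : (0 : ℤ) ≤ p) k
    nlinarith
  exact ⟨q0, by simpa using h 1, h 2, h 3, h 4⟩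

theorem V_hyp (hp : 5 ≤ p) {a b : ℕ} (ha : a ≤ 3) (hb : b ≤ 1) :
    2 * (2 + b * p) + p < p * (2 * p - a) := by
  obtain ⟨r, rfl⟩ : ∃ r, p = r + 5 := ⟨p - 5, by omega⟩
  have h1 : 2 * (r + 5) - a ≥ 2 * r + 7 := by omega
  have h2 : (r + 5) * (2 * r + 7) ≤ (r + 5) * (2 * (r + 5) - a) := Nat.mul_le_mul_left _ h1
  have h3 : b * (r + 5) ≤ 1 * (r + 5) := Nat.mul_le_mul_right _ hb
  nlinarith

variable (S : Sys p E)
include S

theorem Sys.any {I : ℕ → ℕ} (hI : Val I ∧ ∀ n, 5 ≤ n → I n = 0) {s N : ℕ} (h : NM p s N) :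
    E I s N := S.count I s N hI.1 hI.2 fun L hL _ => h L hL

/-- A step in which only `ε ≤ 1`, `j = 0` is possible. -/
theorem Sys.step0 {I : ℕ → ℕ} {n : ℕ} (hI : Val I) (hn : Adm' I n) (h5 : n < 5) {s : ℕ} {N : ℤ}
    (hlt : N < p * ((p : ℤ) ^ I n * wt p n)) (h0 : E I (s + 1) N)
    (h1 : E I s (N - (p : ℤ) ^ I n * wt p n)) : E (up I n) (s + 1) N := by
  refine S.step I n _ _ hI hn h5 fun s' ε j hε hs h => ?_
  obtain rfl := j_zero (by positivity) (by positivity) h hlt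
  rcases Nat.lt_or_ge ε 1 with h2 | h2
  · obtain rfl : ε = 0 := by omega
    exact cast_E h0 (by omega) (by push_cast; ring)
  · obtain rfl : ε = 1 := by omega
    exact cast_E h1 (by omega) (by push_cast; ring)

/-- A step in which only `ε + 2 j ≤ 2` is possible. -/
theorem Sys.step1 {I : ℕ → ℕ} {n : ℕ} (hI : Val I) (hn : Adm' I n) (h5 : n < 5) {s : ℕ} {N : ℤ}
    (hlt : N < p * ((p : ℤ) ^ I n * wt p n) + ((p : ℤ) ^ I n * wt p n))
    (hlt2 : N < 2 * (p * ((p : ℤ) ^ I n * wt p n))) (h0 : E I (s + 2) N)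
    (h1 : E I (s + 1) (N - (p : ℤ) ^ I n * wt p n))
    (h2 : E I s (N - p * ((p : ℤ) ^ I n * wt p n))) : E (up I n) (s + 2) N := by
  refine S.step I n _ _ hI hn h5 fun s' ε j hε hs h => ?_
  rcases j_one (by positivity) (by positivity) h hlt with rfl | ⟨rfl, rfl⟩ | ⟨-, h3⟩
  · rcases Nat.lt_or_ge ε 1 with h3 | h3
    · obtain rfl : ε = 0 := by omega
      exact cast_E h0 (by omega) (by push_cast; ring)
    · obtain rfl : ε = 1 := by omega
      exact cast_E h1 (by omega) (by push_cast; ring)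
  · exact cast_E h2 (by omega) (by push_cast; ring)
  · exact absurd h3 (not_le.2 hlt2)

theorem chain1 (hp : 5 ≤ p) (C : Cnt p)
    (C1 : E A0 (2 * p - 3) (1 - p - p ^ 2 - p ^ 3 + p ^ 4)) :
    E A1 (2 * p - 2) (2 + p ^ 4) := by
  obtain ⟨q0, q1, q2, q3, q4⟩ := pows hp
  rw [show 2 * p - 2 = 2 * p - 3 + 1 by omega]
  refine S.step0 A0_val A1_adm (by norm_num) ?_ ?_ ?_
  · rw [w3, show A0 3 = 0 from rfl, pow_zero, one_mul]
    linarith
  · exact cast_E (S.count A0 (2 * p - 2) (2 + p ^ 4) A0_val A0_fin fun L hL hL' =>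
        C.M8 L hL fun x hx => mem_U0_of (hL' x hx)) (by omega) (by push_cast; ring)
  · rw [w3, show A0 3 = 0 from rfl, pow_zero, one_mul]
    exact cast_E C1 (by omega) (by ring)

theorem chain2 (hp : 5 ≤ p) (C : Cnt p)
    (C2 : E A0 (2 * p - 4) (1 - p - 2 * p ^ 2 - 2 * p ^ 3 + p ^ 4)) :
    E A1 (2 * p - 3) (2 + p ^ 4 - p ^ 2 - p ^ 3) := by
  obtain ⟨q0, q1, q2, q3, q4⟩ := pows hp
  rw [show 2 * p - 3 = 2 * p - 4 + 1 by omega]
  refine S.step0 A0_val A1_adm (by norm_num) ?_ ?_ ?_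
  · rw [w3, show A0 3 = 0 from rfl, pow_zero, one_mul]
    linarith
  · obtain ⟨N, hN⟩ : ∃ N : ℕ, (N : ℤ) = 2 + p ^ 4 - p ^ 2 - p ^ 3 :=
      ⟨(2 + p ^ 4 - p ^ 2 - p ^ 3 : ℤ).toNat, Int.toNat_of_nonneg (by linarith)⟩
    refine cast_E (S.count A0 (2 * p - 3) N A0_val A0_fin fun L hL hL' =>
      C.M10 L hL (fun x hx => mem_U0_of (hL' x hx)) N ?_) (by omega) hN
    have : ((N + p ^ 2 + p ^ 3 : ℕ) : ℤ) = ((2 + p ^ 4 : ℕ) : ℤ) := by
      push_cast; rw [hN]; ring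
    exact_mod_cast this
  · rw [w3, show A0 3 = 0 from rfl, pow_zero, one_mul]
    exact cast_E C2 (by omega) (by ring)

theorem chain3 (hp : 5 ≤ p) (C : Cnt p) (a1 : E A1 (2 * p - 2) (2 + p ^ 4)) :
    E A2 (2 * p - 1) (2 + p + p ^ 2 + p ^ 3 + p ^ 4) := by
  obtain ⟨q0, q1, q2, q3, q4⟩ := pows hp
  rw [show 2 * p - 1 = 2 * p - 3 + 2 by omega]
  refine S.step1 A1_val A2_adm (by norm_num) ?_ ?_ ?_ ?_ ?_
  · rw [w2, show A1 2 = 1 from rfl, pow_one]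
    linarith
  · rw [w2, show A1 2 = 1 from rfl, pow_one]
    linarith
  · exact cast_E (S.count A1 (2 * p - 1) (2 + p + p ^ 2 + p ^ 3 + p ^ 4) A1_val A1_fin
      fun L hL hL' => C.M6 L hL fun x hx => mem_U1_of (hL' x hx)) (by omega) (by push_cast; ring)
  · rw [w2, show A1 2 = 1 from rfl, pow_one]
    exact cast_E a1 (by omega) (by ring)
  · rw [w2, show A1 2 = 1 from rfl, pow_one]
    exact cast_E (S.any ⟨A1_val, A1_fin⟩ (s := 2 * p - 3) (N := 2 + 1 * p)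
      (C.V _ _ (V_hyp hp le_rfl le_rfl))) (by omega) (by push_cast; ring)

theorem chain4 (hp : 5 ≤ p) (C : Cnt p) (a2 : E A1 (2 * p - 3) (2 + p ^ 4 - p ^ 2 - p ^ 3)) :
    E A2 (2 * p - 2) (2 + p + p ^ 4) := by
  obtain ⟨q0, q1, q2, q3, q4⟩ := pows hp
  rw [show 2 * p - 2 = 2 * p - 3 + 1 by omega]
  refine S.step0 A1_val A2_adm (by norm_num) ?_ ?_ ?_
  · rw [w2, show A1 2 = 1 from rfl, pow_one]
    linarith
  · exact cast_E (S.count A1 (2 * p - 2) (2 + p + p ^ 4) A1_val A1_fin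
      fun L hL hL' => C.M9 L hL fun x hx => mem_U1_of (hL' x hx)) (by omega) (by push_cast; ring)
  · rw [w2, show A1 2 = 1 from rfl, pow_one]
    exact cast_E a2 (by omega) (by ring)

theorem chain5 (hp : 5 ≤ p) (C : Cnt p) (b1 : E A2 (2 * p - 1) (2 + p + p ^ 2 + p ^ 3 + p ^ 4))
    (b2 : E A2 (2 * p - 2) (2 + p + p ^ 4)) :
    E A3 (2 * p - 1) (2 + p + p ^ 2 + p ^ 3 + p ^ 4) := by
  obtain ⟨q0, q1, q2, q3, q4⟩ := pows hp
  rw [show 2 * p - 1 = 2 * p - 3 + 2 by omega]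
  refine S.step1 A2_val A3_adm (by norm_num) ?_ ?_ ?_ ?_ ?_
  · rw [w1, show A2 1 = 2 from rfl]
    linarith
  · rw [w1, show A2 1 = 2 from rfl]
    linarith
  · exact cast_E b1 (by omega) rfl
  · rw [w1, show A2 1 = 2 from rfl]
    exact cast_E b2 (by omega) (by ring)
  · rw [w1, show A2 1 = 2 from rfl]
    exact cast_E (S.any ⟨A2_val, A2_fin⟩ C.M5) (by omega) (by push_cast; ring)

theorem chain6 (hp : 5 ≤ p) (C : Cnt p) (c1 : E A3 (2 * p - 1) (2 + p + p ^ 2 + p ^ 3 + p ^ 4)) :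
    E A4 (2 * p - 1) (2 + p + p ^ 2 + p ^ 3 + p ^ 4) := by
  obtain ⟨q0, q1, q2, q3, q4⟩ := pows hp
  rw [show 2 * p - 1 = 2 * p - 2 + 1 by omega]
  refine S.step0 A3_val A4_adm (by norm_num) ?_ ?_ ?_
  · rw [w4, show A3 4 = 0 from rfl, pow_zero, one_mul]
    linarith
  · exact cast_E c1 (by omega) rfl
  · rw [w4, show A3 4 = 0 from rfl, pow_zero, one_mul]
    refine cast_E (S.any ⟨A3_val, A3_fin⟩ (s := 2 * p - 2) (N := 1) (C.V _ _ ?_)) (by omega)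
        (by push_cast; ring)
    have := V_hyp hp (a := 2) (b := 0) (by norm_num) (by norm_num)
    omega

theorem chain7 (hp : 5 ≤ p) (C : Cnt p) (d1 : E A4 (2 * p - 1) (2 + p + p ^ 2 + p ^ 3 + p ^ 4)) :
    E A5 (2 * p - 1) (2 + p + p ^ 2 + p ^ 3 + p ^ 4) := by
  obtain ⟨q0, q1, q2, q3, q4⟩ := pows hp
  rw [show 2 * p - 1 = 2 * p - 2 + 1 by omega]
  refine S.step0 A4_val A5_adm (by norm_num) ?_ ?_ ?_
  · rw [w3, show A4 3 = 1 from rfl, pow_one]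
    linarith
  · exact cast_E d1 (by omega) rfl
  · rw [w3, show A4 3 = 1 from rfl, pow_one]
    exact cast_E (S.any ⟨A4_val, A4_fin⟩ (s := 2 * p - 2) (N := 2 + 0 * p)
      (C.V _ _ (V_hyp hp (by norm_num) (by norm_num)))) (by omega) (by push_cast; ring)

theorem chain8 (hp : 5 ≤ p) (C : Cnt p) (e1 : E A5 (2 * p - 1) (2 + p + p ^ 2 + p ^ 3 + p ^ 4)) :
    E A6 (2 * p - 1) (2 + p + p ^ 2 + p ^ 3 + p ^ 4) := by
  obtain ⟨q0, q1, q2, q3, q4⟩ := pows hp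
  rw [show 2 * p - 1 = 2 * p - 2 + 1 by omega]
  refine S.step0 A5_val A6_adm (by norm_num) ?_ ?_ ?_
  · rw [w2, show A5 2 = 2 from rfl]
    linarith
  · exact cast_E e1 (by omega) rfl
  · rw [w2, show A5 2 = 2 from rfl]
    exact cast_E (S.any ⟨A5_val, A5_fin⟩ (s := 2 * p - 2) (N := 2 + 1 * p)
      (C.V _ _ (V_hyp hp (by norm_num) (by norm_num)))) (by omega) (by push_cast; ring)

theorem chain9 (hp : 5 ≤ p) (C : Cnt p) (f1 : E A6 (2 * p - 1) (2 + p + p ^ 2 + p ^ 3 + p ^ 4)) :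
    E A7 (2 * p - 1) (2 + p + p ^ 2 + p ^ 3 + p ^ 4) := by
  obtain ⟨q0, q1, q2, q3, q4⟩ := pows hp
  rw [show 2 * p - 1 = 2 * p - 2 + 1 by omega]
  refine S.step0 A6_val A7_adm (by norm_num) ?_ ?_ ?_
  · rw [w1, show A6 1 = 3 from rfl]
    linarith
  · exact cast_E f1 (by omega) rfl
  · rw [w1, show A6 1 = 3 from rfl]
    exact cast_E (S.any ⟨A6_val, A6_fin⟩ C.M1) (by omega) (by push_cast; ring)

/-- The vanishing over `k[t_1 ^ (p ^ 3)]`. -/
theorem chain (hp : 5 ≤ p) (C : Cnt p)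
    (C1 : E A0 (2 * p - 3) (1 - p - p ^ 2 - p ^ 3 + p ^ 4))
    (C2 : E A0 (2 * p - 4) (1 - p - 2 * p ^ 2 - 2 * p ^ 3 + p ^ 4)) :
    E A7 (2 * p - 1) (2 + p + p ^ 2 + p ^ 3 + p ^ 4) :=
  chain9 S hp C (chain8 S hp C (chain7 S hp C (chain6 S hp C (chain5 S hp C
    (chain3 S hp C (chain1 S hp C C1)) (chain4 S hp C (chain2 S hp C C2))))))

end Chain

end Vale.Agent.P257.G
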