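import Vale.Agent.P257.B.Cx
import Vale.Agent.P257.G.Switch

/-! Reversal of blocks: the cobar complex of `P` in the form of `PDefs` and the coefficient-free part
of the complexes `KI`. -/

namespace Vale.Agent.P257.G

open MvPolynomial Finset Vale.Agent.P257.Q.PC Vale.Agent.P257.X Vale.Agent.P257.B

variable {p : ℕ}

/-- The weights of the variables of `KI`. -/
def wz (p : ℕ) (I : ℕ → ℕ) (x : ℕ × ℕ) : ℤ := wI p I x

theorem mem_KK_iff {m s : ℕ} {I : ℕ → ℕ} {N : ℤ} {f : KP p} : f ∈ KK p m I s N ↔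
    IsWeightedHomogeneous (wz p I) f N ∧
      f ∈ supported (ZMod p) {x : ℕ × ℕ | x.1 ≤ s ∧ x.2 < m} := by
  have key : ∀ e : ℕ × ℕ →₀ ℕ, Finsupp.weight (wz p I) e =
      ((e.sum fun x a => a * wI p I x : ℕ) : ℤ) := fun e => by
    rw [Finsupp.weight_apply, Finsupp.sum, Finsupp.sum]
    push_cast
    exact Finset.sum_congr rfl fun x _ => by rw [nsmul_eq_mul]; rfl
  constructor
  · intro h
    refine ⟨fun e he => ?_, ?_⟩
    · rw [key]
      exact (h e (mem_support_iff.2 he)).2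
    · rw [mem_supported_iff]
      exact fun e he x hx => (h e he).1 x hx
  · rintro ⟨h1, h2⟩ e he
    rw [mem_supported_iff] at h2
    refine ⟨fun x hx => h2 e he x hx, ?_⟩
    rw [← key]
    exact h1 (mem_support_iff.1 he)

theorem hom_cast {w : ℕ × ℕ → ℕ} {f : KP p} {N : ℕ} :
    IsWeightedHomogeneous (fun x => (w x : ℤ)) f (N : ℤ) ↔ IsWeightedHomogeneous w f N := by
  have key : ∀ e : ℕ × ℕ →₀ ℕ, Finsupp.weight (fun x => (w x : ℤ)) e =
      ((Finsupp.weight w e : ℕ) : ℤ) := fun e => by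
    rw [Finsupp.weight_apply, Finsupp.weight_apply, Finsupp.sum, Finsupp.sum]
    push_cast
    exact Finset.sum_congr rfl fun x _ => by rw [nsmul_eq_mul]; simp
  constructor
  · intro h e he
    have := h he
    rw [key] at this
    exact_mod_cast this
  · intro h e he
    rw [key, h he]

/-- The reversal of `0, ..., s`. -/
def rf (s j : ℕ) : ℕ := if j ≤ s then s - j else j

theorem rf_rf (s j : ℕ) : rf s (rf s j) = j := by
  unfold rf
  split_ifs <;> omega

/-- The reversal of blocks. -/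
noncomputable def rv (p s : ℕ) : KP p →ₐ[ZMod p] KP p := rename fun x => (rf s x.1, x.2)

theorem rv_X (s : ℕ) (x : ℕ × ℕ) : rv p s (X x) = X (rf s x.1, x.2) := rename_X _ _

theorem rv_rv (s : ℕ) (f : KP p) : rv p s (rv p s f) = f := by
  rw [rv, rename_rename]
  have : ((fun x : ℕ × ℕ => (rf s x.1, x.2)) ∘ fun x => (rf s x.1, x.2)) = id := by
    funext x
    simp [rf_rf]
  rw [this]
  exact rename_id_apply f

theorem rv_inj (s : ℕ) : Function.Injective (rv p s) := fun f g h => by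
  rw [← rv_rv s f, ← rv_rv s g, h]

/-- Blocks `< s`. -/
def Vl (s : ℕ) : Set (ℕ × ℕ) := {x | x.1 < s}

/-- Blocks `1, ..., s`. -/
def Vr (s : ℕ) : Set (ℕ × ℕ) := {x | 1 ≤ x.1 ∧ x.1 ≤ s}

theorem rv_supported {s : ℕ} {f : KP p} (hf : f ∈ supported (ZMod p) (Vl s)) :
    rv p s f ∈ supported (ZMod p) (Vr s) := by
  refine supported_map _ (fun x hx => ?_) hf
  rw [rv_X]
  refine X_mem_supported_of ?_
  have : x.1 < s := hx
  simp only [Vr, Set.mem_ofPred_eq, rf]
  split_ifs <;> omega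
where
  X_mem_supported_of {V : Set (ℕ × ℕ)} {x : ℕ × ℕ} (h : x ∈ V) :
      (X x : KP p) ∈ supported (ZMod p) V := by
    rw [supported_eq_adjoin_X]
    exact Algebra.subset_adjoin ⟨x, h, rfl⟩

theorem X_sup {V : Set (ℕ × ℕ)} {x : ℕ × ℕ} (h : x ∈ V) :
    (X x : KP p) ∈ supported (ZMod p) V := by
  rw [supported_eq_adjoin_X]
  exact Algebra.subset_adjoin ⟨x, h, rfl⟩

theorem rv_supported' {s : ℕ} {f : KP p} (hf : f ∈ supported (ZMod p) (Vr s)) :
    rv p s f ∈ supported (ZMod p) (Vl s) := by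
  refine supported_map _ (fun x hx => ?_) hf
  rw [rv_X]
  refine X_sup ?_
  have h1 : 1 ≤ x.1 := hx.1
  have h2 : x.1 ≤ s := hx.2
  simp only [Vl, Set.mem_ofPred_eq, rf]
  split_ifs
  omega

theorem rv_tt (s j n : ℕ) : rv p s (tt p j n) = tt p (rf s j) n := by
  rw [tt, tt]
  split_ifs
  · exact map_one _
  · rw [rv_X]

/-- Two algebra homomorphisms which agree on the variables `tt j (n + 1)`, `j < s`. -/
theorem eq_Vl {s : ℕ} (φ ψ : KP p →ₐ[ZMod p] KP p)
    (h : ∀ j n, j < s → φ (tt p j (n + 1)) = ψ (tt p j (n + 1))) {f : KP p}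
    (hf : f ∈ supported (ZMod p) (Vl s)) : φ f = ψ f :=
  eqOn_supported φ ψ (fun x hx => by
    have := h x.1 x.2 hx
    rwa [tt_succ] at this) hf

theorem sh_tt (j n : ℕ) : sh p (tt p j n) = tt p (j + 1) n := by
  cases n with
  | zero => simp
  | succ n => rw [tt_succ, tt_succ, sh, rename_X]

theorem δ_tt_lt {i j : ℕ} (h : j < i) (n : ℕ) : δ p i (tt p j n) = tt p j n := by
  cases n with
  | zero => simp
  | succ n => rw [tt_succ, δ, aeval_X, if_pos h]

theorem δ_tt_gt {i j : ℕ} (h : i < j) (n : ℕ) : δ p i (tt p j n) = tt p (j + 1) n := by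
  cases n with
  | zero => simp
  | succ n => rw [tt_succ, tt_succ, δ, aeval_X, if_neg (by simpa using h.le), if_neg (by simpa using h.ne')]

theorem δ_tt_eq (i n : ℕ) : δ p i (tt p i (n + 1)) =
    ∑ a ∈ range (n + 2), tt p i a * tt p (i + 1) (n + 1 - a) ^ p ^ a := by
  rw [tt_succ, δ, aeval_X, if_neg (by simp), if_pos rfl]

theorem rf_le {s j : ℕ} (h : j ≤ s) : rf s j = s - j := if_pos h

theorem rv_δ (I : ℕ → ℕ) {s i : ℕ} (hi : i < s) {f : KP p} (hf : f ∈ supported (ZMod p) (Vl s)) :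
    rv p (s + 1) (δ p i f) = ph p I (s - i) (rv p s f) := by
  refine eq_Vl ((rv p (s + 1)).comp (δ p i)) ((ph p I (s - i)).comp (rv p s)) (fun j n hj => ?_) hf
  rw [AlgHom.comp_apply, AlgHom.comp_apply, rv_tt, rf_le hj.le]
  rcases lt_trichotomy j i with h | rfl | h
  · rw [δ_tt_lt h, rv_tt, rf_le (by omega), ph_tt_gt (by omega)]
    congr 1
    omega
  · rw [δ_tt_eq, map_sum, ph_tt_eq]
    unfold B.cop
    refine sum_congr rfl fun k _ => ?_
    have hJ : ∀ n, J I (s - j) n = 0 := fun n => by simp [J]; omega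
    rw [map_mul, map_pow, rv_tt, rv_tt, rf_le (by omega), rf_le (by omega), hJ, hJ, pow_zero,
      pow_one, show s + 1 - j = s - j + 1 by omega, show s + 1 - (j + 1) = s - j by omega]
    simp
  · rw [δ_tt_gt h, rv_tt, rf_le (by omega), ph_tt_lt (by omega)]
    congr 1
    omega

theorem rv_sh {s : ℕ} {f : KP p} (hf : f ∈ supported (ZMod p) (Vl s)) :
    rv p (s + 1) (sh p f) = rv p s f := by
  refine eq_Vl ((rv p (s + 1)).comp (sh p)) (rv p s) (fun j n hj => ?_) hf
  rw [AlgHom.comp_apply, sh_tt, rv_tt, rv_tt, rf_le (by omega), rf_le (by omega)]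
  congr 1
  omega

theorem rv_id (I : ℕ → ℕ) {s : ℕ} {f : KP p} (hf : f ∈ supported (ZMod p) (Vl s)) :
    rv p (s + 1) f = ph p I 0 (rv p s f) := by
  refine eq_Vl (rv p (s + 1)) ((ph p I 0).comp (rv p s)) (fun j n hj => ?_) hf
  rw [AlgHom.comp_apply, rv_tt, rv_tt, rf_le (by omega), rf_le (by omega), ph_tt_gt (by omega)]
  congr 1
  omega

theorem ph_last (I : ℕ → ℕ) {s i : ℕ} (hi : s < i) {f : KP p}
    (hf : f ∈ supported (ZMod p) {x : ℕ × ℕ | x.1 ≤ s}) : ph p I i f = f := by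
  have := eqOn_supported (ph p I i) (AlgHom.id _ _) (fun x hx => by
    have h1 : x.1 ≤ s := hx
    have h2 := ph_tt_lt (p := p) (I := I) (j := x.1) (i := i) (by omega) (x.2 + 1)
    rw [tt_succ] at h2
    rw [h2]; rfl) hf
  exact this

theorem neg_one_smul_pow (k : ℕ) (f : KP p) : (-1 : ZMod p) ^ k • f = (-1 : ℤ) ^ k • f := by
  rcases Nat.even_or_odd k with h | h
  · rw [h.neg_one_pow, h.neg_one_pow, one_smul, one_smul]
  · rw [h.neg_one_pow, h.neg_one_pow, neg_smul, neg_smul, one_smul, one_smul]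

/-- The differentials correspond. -/
theorem rv_cob [Fact p.Prime] (I : ℕ → ℕ) {s : ℕ} {f : KP p}
    (hf : f ∈ supported (ZMod p) (Vl s)) :
    rv p (s + 1) (cob p s f) = (-1 : ℤ) ^ (s + 1) • dd p I s (rv p s f) := by
  have hle : rv p s f ∈ supported (ZMod p) {x : ℕ × ℕ | x.1 ≤ s} :=
    supported_mono (fun x hx => hx.2) (rv_supported hf)
  rw [cob_apply, map_add, map_add, rv_sh hf, map_sum, dd_apply, sum_range_succ, sum_range_succ',
    ph_last I (Nat.lt_succ_self s) hle, neg_one_smul_pow, map_zsmul, rv_id I hf, pow_zero, one_smul,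
    smul_add, smul_add, smul_smul, ← pow_add, Even.neg_one_pow ⟨s + 1, rfl⟩, one_smul,
    ← sum_range_reflect (fun i => (-1 : ℤ) ^ (i + 1) • ph p I (i + 1) (rv p s f)), smul_sum]
  have h1 : ∑ i ∈ range s, rv p (s + 1) ((-1 : ZMod p) ^ (i + 1) • δ p i f) =
      ∑ i ∈ range s, (-1 : ℤ) ^ (s + 1) •
        ((-1 : ℤ) ^ (s - 1 - i + 1) • ph p I (s - 1 - i + 1) (rv p s f)) := by
    refine sum_congr rfl fun i hi => ?_
    rw [mem_range] at hi
    rw [neg_one_smul_pow, map_zsmul, rv_δ I hi hf, smul_smul, ← pow_add,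
      show s - 1 - i + 1 = s - i by omega]
    congr 1
    have : s + 1 + (s - i) = (i + 1) + 2 * (s - i) := by omega
    rw [this, pow_add (-1 : ℤ) (i + 1), pow_mul]
    norm_num
  rw [h1]
  abel

theorem rv_mem [Fact p.Prime] {I : ℕ → ℕ} {m s N : ℕ} (hm : N < wt p m) {f : KP p}
    (hf : f ∈ Ch p s N) : rv p s f ∈ KK p m I s N := by
  obtain ⟨h1, h2⟩ := mem_Ch.1 hf
  have hwt : ∀ n, m ≤ n → N < wt p n := fun n hn => by
    refine lt_of_lt_of_le hm ?_
    unfold wt
    exact sum_le_sum_of_subset (range_subset_range.2 (by omega))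
  have h3 : f ∈ supported (ZMod p) {x : ℕ × ℕ | x.1 < s ∧ x.2 < m} := by
    rw [mem_supported_iff] at h2 ⊢
    intro u hu x hx
    refine ⟨h2 u hu x hx, ?_⟩
    by_contra hlt
    have h4 := h1 (mem_support_iff.1 hu)
    rw [Finsupp.weight_apply, Finsupp.sum] at h4
    have h5 : wt p x.2 ≤ N := by
      rw [← h4]
      refine le_trans ?_ (single_le_sum (f := fun x => u x • wp p x) (fun _ _ => Nat.zero_le _) hx)
      rw [Finsupp.mem_support_iff] at hx
      simp only [smul_eq_mul, wp]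
      exact Nat.le_mul_of_pos_left _ (Nat.pos_of_ne_zero hx)
    have := hwt x.2 (by omega)
    omega
  rw [mem_KK_iff]
  refine ⟨?_, ?_⟩
  · refine homogeneous_map (w := fun x => (wp p x : ℤ)) (rv p s) (V := Vl s) (fun x hx => ?_) h2
      (hom_cast.2 h1)
    rw [rv_X]
    have h4 : wz p I (rf s x.1, x.2) = (wp p x : ℤ) := by
      have : x.1 < s := hx
      rw [wz, wI, rf_le this.le, J, if_neg (by dsimp only; omega), pow_zero, one_mul]
      rfl
    rw [← h4]
    exact isWeightedHomogeneous_X _ _ _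
  · refine supported_map (rv p s) (fun x hx => ?_) h3
    rw [rv_X]
    refine X_sup ⟨?_, hx.2⟩
    rw [rf_le hx.1.le]
    dsimp only
    omega

theorem rv_mem' [Fact p.Prime] {I : ℕ → ℕ} {m s N : ℕ} {f : KP p}
    (hf : f ∈ KK p m I s N) (h0 : f ∈ supported (ZMod p) (Vr s)) : rv p s f ∈ Ch p s N := by
  obtain ⟨h1, -⟩ := mem_KK_iff.1 hf
  rw [mem_Ch]
  refine ⟨hom_cast.1 (homogeneous_map (w := wz p I) (rv p s) (V := Vr s) (fun x hx => ?_) h0 h1),
    rv_supported' h0⟩
  rw [rv_X]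
  have h2 : 1 ≤ x.1 := hx.1
  have h4 : wz p I x = (wp p (rf s x.1, x.2) : ℤ) := by
    rw [wz, wI, J, if_neg (by omega), pow_zero, one_mul]
    rfl
  rw [h4]
  exact isWeightedHomogeneous_X _ _ _

end Vale.Agent.P257.G
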