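import Vale.Agent.P257.X.Gen

/-! Polynomials in one distinguished variable: extraction of coefficients. -/

namespace Vale.Agent.P257.G

open MvPolynomial Finset Vale.Agent.P257.X

variable {σ k : Type*} [CommRing k] [DecidableEq σ] (x₀ : σ)

/-- View a polynomial as a polynomial in the variable `x₀`. -/
noncomputable def Φ : MvPolynomial σ k →ₐ[k] Polynomial (MvPolynomial σ k) :=
  aeval fun x => if x = x₀ then Polynomial.X else Polynomial.C (X x)

theorem Φ_X_self : Φ (k := k) x₀ (X x₀) = Polynomial.X := by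
  rw [Φ, aeval_X, if_pos rfl]

theorem Φ_X_ne {x : σ} (h : x ≠ x₀) : Φ (k := k) x₀ (X x) = Polynomial.C (X x) := by
  rw [Φ, aeval_X, if_neg h]

/-- Polynomials without the variable `x₀`. -/
theorem Φ_of_supported {V : Set σ} (hV : x₀ ∉ V) {f : MvPolynomial σ k} (hf : f ∈ supported k V) :
    Φ x₀ f = Polynomial.C f := by
  rw [supported_eq_adjoin_X] at hf
  induction hf using Algebra.adjoin_induction with
  | mem x hx => obtain ⟨y, hy, rfl⟩ := hx; exact Φ_X_ne x₀ fun h => hV (h ▸ hy)
  | algebraMap r => rw [AlgHom.commutes]; rfl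
  | add x y _ _ hx hy => rw [map_add, hx, hy, Polynomial.C_add]
  | mul x y _ _ hx hy => rw [map_mul, hx, hy, Polynomial.C_mul]

theorem Φ_eval (f : MvPolynomial σ k) : (Φ x₀ f).eval (X x₀) = f := by
  induction f using MvPolynomial.induction_on with
  | C a => rw [← algebraMap_eq, AlgHom.commutes, Polynomial.algebraMap_apply, Polynomial.eval_C]
  | add f g hf hg => rw [map_add, Polynomial.eval_add, hf, hg]
  | mul_X f x hf =>
    rw [map_mul, Polynomial.eval_mul, hf]
    by_cases h : x = x₀
    · subst h; rw [Φ_X_self, Polynomial.eval_X]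
    · rw [Φ_X_ne _ h, Polynomial.eval_C]

theorem Φ_monomial (u : σ →₀ ℕ) (c : k) :
    Φ x₀ (monomial u c) = Polynomial.monomial (u x₀) (monomial (u.erase x₀) c) := by
  rw [Φ, aeval_monomial, ← Finsupp.mul_prod_erase' u x₀ _ (fun _ => pow_zero _), if_pos rfl,
    ← Polynomial.C_mul_X_pow_eq_monomial, monomial_eq (s := u.erase x₀), Polynomial.C_mul,
    Polynomial.algebraMap_apply, algebraMap_eq]
  have h : (Finsupp.erase x₀ u).prod (fun x m =>
      (if x = x₀ then (Polynomial.X : Polynomial (MvPolynomial σ k)) else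
        Polynomial.C (X x)) ^ m) =
      Polynomial.C ((Finsupp.erase x₀ u).prod fun x m => (X x : MvPolynomial σ k) ^ m) := by
    rw [Finsupp.prod, Finsupp.prod, map_prod]
    refine Finset.prod_congr rfl fun x hx => ?_
    rw [Finsupp.support_erase, mem_erase] at hx
    rw [if_neg hx.1, Polynomial.C_pow]
  rw [h]
  ring

/-- The coefficients of `Φ`. -/
theorem coeff_coeff_Φ (f : MvPolynomial σ k) (i : ℕ) (u : σ →₀ ℕ) :
    coeff u ((Φ x₀ f).coeff i) = if u x₀ = 0 then coeff (u + Finsupp.single x₀ i) f else 0 := by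
  classical
  conv_lhs => rw [f.as_sum, map_sum, Polynomial.finsetSum_coeff, coeff_sum]
  have h1 : ∀ v, coeff u ((Φ x₀ (monomial v (coeff v f))).coeff i) =
      if v x₀ = i ∧ v.erase x₀ = u then coeff v f else 0 := by
    intro v
    rw [Φ_monomial, Polynomial.coeff_monomial]
    split_ifs with h2 h3 h3
    · rw [coeff_monomial, if_pos h3.2]
    · rw [coeff_monomial, if_neg fun h => h3 ⟨h2, h⟩]
    · exact absurd h3.1 h2
    · rw [coeff_zero]
  rw [Finset.sum_congr rfl fun v _ => h1 v]
  split_ifs with h0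
  · rw [Finset.sum_eq_single (u + Finsupp.single x₀ i)]
    · rw [if_pos]
      refine ⟨by simp [h0], ?_⟩
      ext y
      by_cases hy : y = x₀
      · subst hy; simp [h0]
      · rw [Finsupp.erase_ne hy, Finsupp.add_apply, Finsupp.single_eq_of_ne hy, add_zero]
    · intro v _ hv
      rw [if_neg]
      rintro ⟨h2, h3⟩
      apply hv
      ext y
      by_cases hy : y = x₀
      · subst hy; simp [h0, h2]
      · rw [← h3, Finsupp.add_apply, Finsupp.erase_ne hy, Finsupp.single_eq_of_ne hy, add_zero]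
    · intro h2
      rw [notMem_support_iff] at h2
      rw [h2, ite_self]
  · refine Finset.sum_eq_zero fun v _ => ?_
    rw [if_neg]
    rintro ⟨-, h3⟩
    rw [← h3, Finsupp.erase_same] at h0
    exact h0 rfl

theorem coeff_Φ_supported {V : Set σ} {f : MvPolynomial σ k} (hf : f ∈ supported k V) (i : ℕ) :
    (Φ x₀ f).coeff i ∈ supported k (V \ {x₀}) := by
  rw [mem_supported_iff] at hf ⊢
  intro u hu x hx
  rw [mem_support_iff, coeff_coeff_Φ] at hu
  split_ifs at hu with h0
  · have hxx : x ≠ x₀ := by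
      rintro rfl
      rw [Finsupp.mem_support_iff] at hx
      exact hx h0
    refine ⟨hf _ (mem_support_iff.2 hu) x ?_, hxx⟩
    rw [Finsupp.mem_support_iff] at hx ⊢
    rw [Finsupp.add_apply]
    omega
  · exact absurd rfl hu

theorem coeff_Φ_hom {w : σ → ℤ} {N : ℤ} {f : MvPolynomial σ k}
    (hf : IsWeightedHomogeneous w f N) (i : ℕ) :
    IsWeightedHomogeneous w ((Φ x₀ f).coeff i) (N - i * w x₀) := by
  intro u hu
  rw [coeff_coeff_Φ] at hu
  split_ifs at hu with h0
  · have := hf hu
    rw [map_add] at this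
    have h2 : Finsupp.weight w (Finsupp.single x₀ i) = i * w x₀ := by
      rw [Finsupp.weight_apply, Finsupp.sum_single_index (by simp), nsmul_eq_mul]
    rw [h2] at this
    omega
  · exact absurd rfl hu

omit [DecidableEq σ] in
/-- A weighted homogeneous polynomial of negative degree vanishes. -/
theorem hom_neg {w : σ → ℤ} (hw : ∀ x, 0 ≤ w x) {N : ℤ} (hN : N < 0) {f : MvPolynomial σ k}
    (hf : IsWeightedHomogeneous w f N) : f = 0 := by
  ext u
  rw [coeff_zero]
  by_contra h
  have h1 := hf h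
  have h2 : 0 ≤ Finsupp.weight w u := by
    rw [Finsupp.weight_apply]
    exact Finset.sum_nonneg fun x _ => by
      dsimp only
      rw [nsmul_eq_mul]; exact mul_nonneg (by positivity) (hw x)
  omega

omit [DecidableEq σ] in
/-- Variables of large weight do not occur. -/
theorem hom_supported {w : σ → ℤ} (hw : ∀ x, 0 ≤ w x) {N : ℤ} {f : MvPolynomial σ k}
    (hf : IsWeightedHomogeneous w f N) {V V' : Set σ} (hV : f ∈ supported k V)
    (h : ∀ x ∈ V, w x ≤ N → x ∈ V') : f ∈ supported k V' := by
  rw [mem_supported_iff] at hV ⊢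
  intro u hu x hx
  refine h x (hV u hu x hx) ?_
  have h1 := hf (mem_support_iff.1 hu)
  rw [← h1, Finsupp.weight_apply]
  have h2 : w x ≤ u x • w x := by
    rw [Finsupp.mem_support_iff] at hx
    rw [nsmul_eq_mul]
    have : (1 : ℤ) ≤ u x := by exact_mod_cast Nat.one_le_iff_ne_zero.2 hx
    nlinarith [hw x]
  exact h2.trans (Finset.single_le_sum (f := fun x => u x • w x)
    (fun y _ => by rw [nsmul_eq_mul]; exact mul_nonneg (by positivity) (hw y)) hx)

/-- The degree in `x₀` is bounded. -/
theorem natDegree_Φ {w : σ → ℤ} (hw : ∀ x, 0 ≤ w x) {N : ℤ} {f : MvPolynomial σ k}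
    (hf : IsWeightedHomogeneous w f N) {d : ℕ} (hd : N < (d + 1) * w x₀) :
    (Φ x₀ f).natDegree ≤ d := by
  rw [Polynomial.natDegree_le_iff_coeff_eq_zero]
  intro i hi
  refine hom_neg hw ?_ (coeff_Φ_hom x₀ hf i)
  have h1 : (d + 1 : ℤ) ≤ i := by exact_mod_cast hi
  nlinarith [hw x₀]

/-- Top coefficient under a translation. -/
theorem coeff_comp_top {R : Type*} [CommRing R] (g : Polynomial R) (c : R) {d : ℕ}
    (hg : g.natDegree ≤ d) : (g.comp (Polynomial.X + Polynomial.C c)).coeff d = g.coeff d := by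
  rw [← Polynomial.taylor_apply, Polynomial.taylor_coeff, Polynomial.hasseDeriv_apply]
  rw [Polynomial.sum_over_range' _ _ (d + 1) (by omega), Polynomial.eval_finsetSum,
    Finset.sum_range_succ, Finset.sum_eq_zero, zero_add]
  · simp
  · intro i hi
    rw [mem_range] at hi
    rw [Nat.choose_eq_zero_of_lt hi]
    simp
  · intro n; simp

end Vale.Agent.P257.G
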