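import Vale.Agent.P257.X.Abs
import Vale.Agent.P257.G.Coef

/-! The top cell argument: a cocycle `z x ^ m + y` over `k[x]` which is a coboundary has a
coboundary as its top coefficient. -/

namespace Vale.Agent.P257.G

open MvPolynomial Finset Vale.Agent.P257.X

section Face

variable {σ k : Type*} [CommRing k] [DecidableEq σ] (x₀ : σ)

/-- A translation in the variable `x₀`. -/
theorem Φ_face (φ : MvPolynomial σ k →ₐ[k] MvPolynomial σ k) {V : Set σ} {c : MvPolynomial σ k}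
    (hc : Φ x₀ c = Polynomial.C c) (h0 : φ (X x₀) = X x₀ + c)
    (h : ∀ x ∈ V, x ≠ x₀ → Φ x₀ (φ (X x)) = Polynomial.C (φ (X x)))
    {f : MvPolynomial σ k} (hf : f ∈ supported k V) :
    Φ x₀ (φ f) = ((Φ x₀ f).map φ.toRingHom).comp (Polynomial.X + Polynomial.C c) := by
  rw [supported_eq_adjoin_X] at hf
  induction hf using Algebra.adjoin_induction with
  | mem x hx =>
    obtain ⟨y, hy, rfl⟩ := hx
    by_cases hyx : y = x₀
    · subst hyx
      rw [h0, map_add, hc, Φ_X_self, Polynomial.map_X, Polynomial.X_comp]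
    · rw [h y hy hyx, Φ_X_ne _ hyx, Polynomial.map_C, Polynomial.C_comp]
      rfl
  | algebraMap r =>
    rw [AlgHom.commutes, AlgHom.commutes, Polynomial.algebraMap_apply, Polynomial.map_C,
      Polynomial.C_comp]
    congr 1
    exact (φ.commutes r).symm
  | add x y _ _ hx hy => rw [map_add, map_add, hx, hy, map_add, Polynomial.map_add,
      Polynomial.add_comp]
  | mul x y _ _ hx hy => rw [map_mul, map_mul, hx, hy, map_mul, Polynomial.map_mul,
      Polynomial.mul_comp]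

theorem Φ_face_top (φ : MvPolynomial σ k →ₐ[k] MvPolynomial σ k) {V : Set σ} {c : MvPolynomial σ k}
    (hc : Φ x₀ c = Polynomial.C c) (h0 : φ (X x₀) = X x₀ + c)
    (h : ∀ x ∈ V, x ≠ x₀ → Φ x₀ (φ (X x)) = Polynomial.C (φ (X x)))
    {f : MvPolynomial σ k} (hf : f ∈ supported k V) {d : ℕ} (hd : (Φ x₀ f).natDegree ≤ d) :
    (Φ x₀ (φ f)).coeff d = φ ((Φ x₀ f).coeff d) := by
  rw [Φ_face x₀ φ hc h0 h hf, coeff_comp_top _ _ (Polynomial.natDegree_map_le.trans hd),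
    Polynomial.coeff_map]
  rfl

theorem Φ_coeff_free (f : MvPolynomial σ k) (i : ℕ) :
    Φ x₀ ((Φ x₀ f).coeff i) = Polynomial.C ((Φ x₀ f).coeff i) :=
  Φ_of_supported x₀ (V := Set.univ \ {x₀}) (fun h => h.2 rfl)
    (coeff_Φ_supported x₀ (V := Set.univ) (by rw [supported_univ]; trivial) i)

end Face

section Top

variable {σ k : Type*} [CommRing k] [DecidableEq σ]

/-- The properties of a complex with coefficients in `k[x₀]`, in degrees `≤ M`. -/
structure Top (C : Cpx (MvPolynomial σ k)) (x₀ : σ) (w M : ℤ) : Prop where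
  pos : 0 < w
  neg : ∀ s N, N < 0 → ∀ f ∈ C.K s N, f = 0
  coef : ∀ s N, N ≤ M → ∀ f ∈ C.K s N, ∀ i : ℕ, (Φ x₀ f).coeff i ∈ C.K s (N - i * w)
  mul : ∀ s N, N ≤ M → ∀ f ∈ C.K s N, ∀ i : ℕ, X x₀ ^ i * f ∈ C.K s (N + i * w)
  top : ∀ s N, N ≤ M → ∀ f ∈ C.K s N, ∀ d, (Φ x₀ f).natDegree ≤ d →
    (Φ x₀ (C.d s f)).coeff d = C.d s ((Φ x₀ f).coeff d)

variable {C : Cpx (MvPolynomial σ k)} {x₀ : σ} {w M : ℤ}

theorem Top.natDegree (h : Top C x₀ w M) {s : ℕ} {N : ℤ} (hN : N ≤ M) {f : MvPolynomial σ k}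
    (hf : f ∈ C.K s N) {d : ℕ} (hd : N < (d + 1) * w) : (Φ x₀ f).natDegree ≤ d := by
  rw [Polynomial.natDegree_le_iff_coeff_eq_zero]
  intro i hi
  refine h.neg s _ ?_ _ (h.coef s N hN f hf i)
  have h1 : (d + 1 : ℤ) ≤ i := by exact_mod_cast hi
  nlinarith [h.pos]

/-- The top cell argument. -/
theorem Top.cell (h : Top C x₀ w M) {s : ℕ} {N₀ : ℤ} {m : ℕ} (hM : N₀ + m * w ≤ M)
    (hN₀ : N₀ < 2 * w) {z y : MvPolynomial σ k} (hz : Φ x₀ z = Polynomial.C z)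
    (hy : Φ x₀ y = Polynomial.C y)
    (hzK : z ∈ C.K (s + 2) N₀) (hyK : y ∈ C.K (s + 2) (N₀ + m * w)) (hm : 1 ≤ m)
    (hc : C.d (s + 2) (X x₀ ^ m * z + y) = 0)
    (hE : C.Ex (s + 2) (N₀ + m * w))
    (hE' : ∀ g ∈ C.K (s + 1) (N₀ - w), Φ x₀ g = Polynomial.C g → C.d (s + 1) g = 0 →
      ∃ u ∈ C.K s (N₀ - w), Φ x₀ u = Polynomial.C u ∧ C.d s u = g) :
    ∃ g ∈ C.K (s + 1) N₀, Φ x₀ g = Polynomial.C g ∧ C.d (s + 1) g = z := by
  have hw := h.pos
  have hN0M : N₀ ≤ M := by nlinarith [mul_nonneg (by positivity : (0 : ℤ) ≤ m) hw.le]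
  have hw0M : N₀ - w ≤ M := by linarith
  have hW : X x₀ ^ m * z + y ∈ C.K (s + 2) (N₀ + m * w) := add_mem (h.mul _ _ hN0M _ hzK m) hyK
  obtain ⟨v, hv, hv'⟩ := hE _ ⟨hW, hc⟩
  -- the top coefficient of `v`
  have hvd : (Φ x₀ v).natDegree ≤ m + 1 := h.natDegree hM hv (by push_cast; linarith)
  have hΦW : Φ x₀ (X x₀ ^ m * z + y) = Polynomial.X ^ m * Polynomial.C z + Polynomial.C y := by
    rw [map_add, map_mul, map_pow, Φ_X_self, hz, hy]
  have hcW1 : (Φ x₀ (X x₀ ^ m * z + y)).coeff (m + 1) = 0 := by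
    rw [hΦW, Polynomial.coeff_add, Polynomial.coeff_mul_C, Polynomial.coeff_X_pow,
      if_neg (by omega), zero_mul, zero_add, Polynomial.coeff_C, if_neg (by omega)]
  have hcW0 : (Φ x₀ (X x₀ ^ m * z + y)).coeff m = z := by
    rw [hΦW, Polynomial.coeff_add, Polynomial.coeff_mul_C, Polynomial.coeff_X_pow, if_pos rfl,
      one_mul, Polynomial.coeff_C, if_neg (by omega), add_zero]
  have hg1 : (Φ x₀ v).coeff (m + 1) ∈ C.K (s + 1) (N₀ - w) := by
    have := h.coef _ _ hM v hv (m + 1)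
    rwa [show N₀ + m * w - ((m + 1 : ℕ) : ℤ) * w = N₀ - w by push_cast; ring] at this
  obtain ⟨u, hu, huf, hu'⟩ := hE' _ hg1 (Φ_coeff_free x₀ v (m + 1)) (by
    rw [← h.top _ _ hM v hv (m + 1) hvd, hv', hcW1])
  -- remove the top coefficient
  have hxu : X x₀ ^ (m + 1) * u ∈ C.K s (N₀ + m * w) := by
    have := h.mul _ _ hw0M u hu (m + 1)
    rwa [show N₀ - w + ((m + 1 : ℕ) : ℤ) * w = N₀ + m * w by push_cast; ring] at this
  have hv2K : v - C.d s (X x₀ ^ (m + 1) * u) ∈ C.K (s + 1) (N₀ + m * w) :=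
    sub_mem hv (C.d_mem _ _ _ hxu)
  have hΦxu : Φ x₀ (X x₀ ^ (m + 1) * u) = Polynomial.X ^ (m + 1) * Polynomial.C u := by
    rw [map_mul, map_pow, Φ_X_self, huf]
  have hv2top : (Φ x₀ (v - C.d s (X x₀ ^ (m + 1) * u))).coeff (m + 1) = 0 := by
    rw [map_sub, Polynomial.coeff_sub, h.top _ _ hM _ hxu (m + 1) (by
      rw [hΦxu]
      refine (Polynomial.natDegree_mul_C_le _ _).trans ?_
      exact Polynomial.natDegree_X_pow_le _), hΦxu, Polynomial.coeff_mul_C,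
      Polynomial.coeff_X_pow, if_pos rfl, one_mul, hu', sub_self]
  have hv2d : (Φ x₀ (v - C.d s (X x₀ ^ (m + 1) * u))).natDegree ≤ m := by
    rw [Polynomial.natDegree_le_iff_coeff_eq_zero]
    intro i hi
    rcases Nat.eq_or_lt_of_le (Nat.succ_le_of_lt hi) with h1 | h1
    · rw [← h1]; exact hv2top
    · refine Polynomial.coeff_eq_zero_of_natDegree_lt (lt_of_le_of_lt ?_ h1)
      exact h.natDegree hM hv2K (by push_cast; linarith)
  refine ⟨(Φ x₀ (v - C.d s (X x₀ ^ (m + 1) * u))).coeff m, ?_, Φ_coeff_free x₀ _ m, ?_⟩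
  · have := h.coef _ _ hM _ hv2K m
    rwa [add_sub_cancel_right] at this
  · rw [← h.top _ _ hM _ hv2K m hv2d, map_sub, C.d_d _ _ _ hxu, sub_zero, hv', hcW0]

end Top

end Vale.Agent.P257.G
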