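import Vale.Agent.P257.B.Der
import Vale.Agent.P257.G.Chain
import Vale.Agent.P257.G.Rev
import Vale.Agent.P257.G.TopCell

/-! The field `G2` from the vanishing over `k[t_1 ^ (p ^ 3)]`. -/

namespace Vale.Agent.P257.G

open MvPolynomial Finset Vale.Agent.P257.Q.PC Vale.Agent.P257.X Vale.Agent.P257.B

/-- The thresholds, with the index of `KI`. -/
def lift (A : ℕ → ℕ) : ℕ → ℕ := fun a => if a = 0 then 0 else A (a - 1)

theorem lift_succ (A : ℕ → ℕ) (n : ℕ) : lift A (n + 1) = A n := by simp [lift]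

theorem lift_ok {A : ℕ → ℕ} (h : Val A) : Ok (lift A) := by
  intro a b
  rcases a with _ | a
  · simp [lift]
  · rw [show a + 1 + b = a + b + 1 by omega, lift_succ, lift_succ]
    have := h a (a + b) (by omega)
    omega

theorem lift_pr {A : ℕ → ℕ} {n : ℕ} (h : Adm' A n) : Pr (lift A) n := by
  intro n' hn'
  rw [lift_succ, lift_succ]
  have := h n' hn'
  omega

theorem lift_up (A : ℕ → ℕ) (n : ℕ) : B.up (lift A) n = lift (G.up A n) := by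
  funext a
  rcases a with _ | a
  · simp [B.up, lift]
  · rw [lift_succ, B.up]
    by_cases h : a = n
    · subst h
      rw [if_pos rfl, lift_succ, up_self]
    · rw [if_neg (by omega), lift_succ, up_ne _ h]

/-- The exactness statements. -/
def EI (p m : ℕ) [Fact p.Prime] (A : ℕ → ℕ) (s : ℕ) (N : ℤ) : Prop :=
  ∀ h : Ok (lift A), (KI p m (lift A) h).Ex s N

variable {p : ℕ} [Fact p.Prime]

omit [Fact p.Prime] in
theorem wI_lift (A : ℕ → ℕ) (n : ℕ) : wI p (lift A) (0, n) = p ^ A n * wt p n := by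
  simp [wI, J, lift_succ]

theorem EI_step {m : ℕ} (A : ℕ → ℕ) (n s : ℕ) (N : ℤ) (hA : Val A) (hn : Adm' A n) (hm : n < m)
    (H : ∀ s' ε j : ℕ, ε ≤ 1 → s = s' + ε + 2 * j →
      EI p m A s' (N - (ε + p * j) * ((p : ℤ) ^ A n * wt p n))) : EI p m (G.up A n) s N := by
  intro h
  have h1 := tower (p := p) (lift_ok hA) (lift_pr hn) hm s N (by
    intro s' ε j hε hs
    have := H s' ε j hε hs (lift_ok hA)
    rw [wI_lift]
    push_cast
    exact this)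
  have key : ∀ (I' : ℕ → ℕ) (hI' : Ok I'), I' = lift (G.up A n) → (KI p m I' hI').Ex s N →
      (KI p m (lift (G.up A n)) h).Ex s N := by
    intro I' hI' e hx
    subst e
    exact hx
  exact key _ _ (lift_up A n) h1

omit [Fact p.Prime] in
theorem wz_nonneg (I : ℕ → ℕ) (x : ℕ × ℕ) : 0 ≤ wz p I x := Int.natCast_nonneg _

theorem KI_neg {m : ℕ} {I : ℕ → ℕ} (hI : Ok I) (s : ℕ) {N : ℤ} (hN : N < 0) {f : KP p}
    (hf : f ∈ (KI p m I hI).K s N) : f = 0 :=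
  hom_neg (wz_nonneg I) hN (mem_KK_iff.1 hf).1

theorem EI_neg {m : ℕ} {A : ℕ → ℕ} (s : ℕ) {N : ℤ} (hN : N < 0) : EI p m A s N := by
  intro h f hf
  rw [KI_neg h s hN hf.1]
  exact Cpx.B.zero _ _

omit [Fact p.Prime] in
/-- The bound for the degrees. -/
theorem A7_weight (hp : 2 ≤ p) {n : ℕ} (hn : n ≠ 0) (hn5 : n < 5) :
    (2 + p + p ^ 2 + p ^ 3 + p ^ 4 : ℤ) < wz p (lift A7) (0, n) := by
  have h2 : (2 : ℤ) ≤ p := by exact_mod_cast hp
  have p1 : (2 : ℤ) * p ≤ (p : ℤ) ^ 2 := by nlinarith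
  have p2 : (2 : ℤ) * p ^ 2 ≤ (p : ℤ) ^ 3 := by nlinarith [pow_nonneg (by linarith : (0 : ℤ) ≤ p) 2]
  have p3 : (2 : ℤ) * p ^ 3 ≤ (p : ℤ) ^ 4 := by nlinarith [pow_nonneg (by linarith : (0 : ℤ) ≤ p) 3]
  have p4 : (2 : ℤ) * p ^ 4 ≤ (p : ℤ) ^ 5 := by nlinarith [pow_nonneg (by linarith : (0 : ℤ) ≤ p) 4]
  rw [wz, wI_lift]
  have hc : n = 1 ∨ n = 2 ∨ n = 3 ∨ n = 4 := by omega
  rcases hc with rfl | rfl | rfl | rfl
  · rw [show A7 1 = 4 from rfl]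
    push_cast
    rw [w1]
    linarith
  · rw [show A7 2 = 3 from rfl]
    push_cast
    rw [w2]
    linarith
  · rw [show A7 3 = 2 from rfl]
    push_cast
    rw [w3]
    linarith
  · rw [show A7 4 = 1 from rfl]
    push_cast
    rw [w4]
    linarith

omit [Fact p.Prime] in
theorem wz_00 : wz p (lift A7) (0, 0) = (p : ℤ) ^ 3 := by
  rw [wz, wI_lift, show A7 0 = 3 from rfl]
  simp [wt]

/-- No coefficient variable except `t_1 ^ (p ^ 3)`. -/
theorem KI_supported (hp : 2 ≤ p) {s : ℕ} {N : ℤ} (hN : N ≤ 2 + p + p ^ 2 + p ^ 3 + p ^ 4)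
    {f : KP p} (hf : f ∈ KK p 5 (lift A7) s N) :
    f ∈ supported (ZMod p) {x : ℕ × ℕ | x.1 ≤ s ∧ (x.1 = 0 → x.2 = 0)} := by
  obtain ⟨h1, h2⟩ := mem_KK_iff.1 hf
  refine hom_supported (wz_nonneg _) h1 h2 ?_
  rintro ⟨b, n⟩ ⟨hx1, hx2⟩ hw
  refine ⟨hx1, fun hb => ?_⟩
  dsimp only at hb hx2 ⊢
  subst hb
  by_contra hn
  have := A7_weight (p := p) hp hn hx2
  linarith

omit [Fact p.Prime] in
theorem ph_zero_x (I : ℕ → ℕ) : ph p I 0 (X (0, 0)) = X (0, 0) + X (1, 0) ^ p ^ I 1 := by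
  rw [← tt_succ, ph_tt_eq]
  unfold B.cop
  rw [sum_range_succ, sum_range_one]
  simp [J]

theorem free_of {f : KP p} {V : Set (ℕ × ℕ)} (hV : (0, 0) ∉ V) (hf : f ∈ supported (ZMod p) V) :
    Φ ((0, 0) : ℕ × ℕ) f = Polynomial.C f := Φ_of_supported _ hV hf

/-- Faces of variables of positive blocks do not involve block `0`. -/
theorem ph_pos (I : ℕ → ℕ) (i : ℕ) {x : ℕ × ℕ} (hx : 1 ≤ x.1) :
    ph p I i (X x) ∈ supported (ZMod p) {y : ℕ × ℕ | 1 ≤ y.1} := by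
  have htt : ∀ j n, 1 ≤ j → tt p j n ∈ supported (ZMod p) {y : ℕ × ℕ | 1 ≤ y.1} := by
    intro j n hj
    cases n with
    | zero => rw [tt_zero]; exact one_mem _
    | succ n => rw [tt_succ]; exact X_sup hj
  obtain ⟨b, n⟩ := x
  dsimp only at hx
  rw [← tt_succ]
  rcases lt_trichotomy b i with h | rfl | h
  · rw [ph_tt_lt h]; exact htt _ _ hx
  · rw [ph_tt_eq]
    unfold B.cop
    exact sum_mem fun k _ => mul_mem (pow_mem (htt _ _ (by omega)) _) (pow_mem (htt _ _ hx) _)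
  · rw [ph_tt_gt h]; exact htt _ _ (by omega)

theorem ph_top (hp : 2 ≤ p) {s : ℕ} {N : ℤ} (hN : N ≤ 2 + p + p ^ 2 + p ^ 3 + p ^ 4)
    {f : KP p} (hf : f ∈ KK p 5 (lift A7) s N) {d : ℕ}
    (hd : (Φ ((0, 0) : ℕ × ℕ) f).natDegree ≤ d) (i : ℕ) :
    (Φ ((0, 0) : ℕ × ℕ) (ph p (lift A7) i f)).coeff d =
      ph p (lift A7) i ((Φ ((0, 0) : ℕ × ℕ) f).coeff d) := by
  have h0 : ((0, 0) : ℕ × ℕ) ∉ {y : ℕ × ℕ | 1 ≤ y.1} := fun h => by
    have : 1 ≤ 0 := h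
    omega
  have hV : ∀ x ∈ {x : ℕ × ℕ | x.1 ≤ s ∧ (x.1 = 0 → x.2 = 0)}, x ≠ (0, 0) → 1 ≤ x.1 := by
    rintro ⟨b, n⟩ ⟨-, h2⟩ hne
    dsimp only at h2 ⊢
    by_contra hb
    obtain rfl : b = 0 := by omega
    exact hne (by rw [h2 rfl])
  cases i with
  | zero =>
    refine Φ_face_top _ _ (c := X (1, 0) ^ p ^ (lift A7) 1) ?_ (ph_zero_x _) (fun x hx hne => ?_)
      (KI_supported hp hN hf) hd
    · have hX : (X ((1, 0) : ℕ × ℕ) : KP p) ∈ supported (ZMod p) {y : ℕ × ℕ | 1 ≤ y.1} :=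
        X_sup (V := {y : ℕ × ℕ | 1 ≤ y.1}) (x := (1, 0)) (le_refl 1)
      exact free_of h0 (pow_mem hX _)
    · exact free_of h0 (ph_pos _ _ (hV x hx hne))
  | succ i =>
    refine Φ_face_top _ _ (c := 0) (by simp) ?_ (fun x hx hne => ?_)
      (KI_supported hp hN hf) hd
    · rw [add_zero, ← tt_succ, ph_tt_lt (by omega)]
    · exact free_of h0 (ph_pos _ _ (hV x hx hne))

/-- The complex with coefficients in `k[t_1 ^ (p ^ 3)]`. -/
theorem top_inst (hI : Ok (lift A7)) : Top (KI p 5 (lift A7) hI) ((0, 0) : ℕ × ℕ) ((p : ℤ) ^ 3)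
    (2 + p + p ^ 2 + p ^ 3 + p ^ 4) where
  pos := pow_pos (by exact_mod_cast (Fact.out : p.Prime).pos) 3
  neg s N hN f hf := KI_neg hI s hN hf
  coef s N _ f hf i := by
    obtain ⟨h1, h2⟩ := mem_KK_iff.1 hf
    refine mem_KK_iff.2 ⟨?_, ?_⟩
    · have := coeff_Φ_hom ((0, 0) : ℕ × ℕ) h1 i
      rwa [wz_00] at this
    · exact supported_mono Set.sdiff_subset (coeff_Φ_supported _ h2 i)
  mul s N _ f hf i := by
    have h1 := KK.mul (KK.pow (KK.X (p := p) (m := 5) (I := lift A7) (s := s) (x := (0, 0))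
      (by simp) (by simp)) i) hf
    have h2 : (wI p (lift A7) (0, 0) : ℤ) = (p : ℤ) ^ 3 := wz_00
    rw [h2, add_comm] at h1
    exact h1
  top s N hN f hf d hd := by
    have hp := (Fact.out : p.Prime).two_le
    change (Φ _ (dd p (lift A7) s f)).coeff d = dd p (lift A7) s _
    rw [dd_apply, dd_apply, map_sum, Polynomial.finsetSum_coeff]
    refine sum_congr rfl fun i _ => ?_
    rw [map_zsmul, Polynomial.coeff_smul, ph_top hp hN hf hd]

theorem dd_mul_x (I : ℕ → ℕ) (s : ℕ) (f : KP p) : dd p I s (X (0, 0) ^ p * f) =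
    X (0, 0) ^ p * dd p I s f + X (1, 0) ^ p ^ (I 1 + 1) * ph p I 0 f := by
  rw [dd_apply, dd_apply, sum_range_succ', sum_range_succ' _ (s + 1), mul_add, mul_sum]
  have h1 : ∀ i, ph p I (i + 1) (X (0, 0)) = X (0, 0) := fun i => by
    rw [← tt_succ, ph_tt_lt (by omega)]
  have h2 : ph p I 0 (X (0, 0) ^ p) = X (0, 0) ^ p + X (1, 0) ^ p ^ (I 1 + 1) := by
    rw [map_pow, ph_zero_x, add_pow_char, ← pow_mul, ← pow_succ]
  have h3 : ∀ i ∈ range (s + 1), (-1 : ℤ) ^ (i + 1) • ph p I (i + 1) (X (0, 0) ^ p * f) =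
      X (0, 0) ^ p * ((-1 : ℤ) ^ (i + 1) • ph p I (i + 1) f) := fun i _ => by
    rw [map_mul, map_pow, h1, mul_smul_comm]
  rw [sum_congr rfl h3, map_mul, h2, pow_zero, one_smul, one_smul, add_mul, add_assoc]

theorem Vr_free {s : ℕ} {f : KP p} (hf : f ∈ supported (ZMod p) (Vr s)) :
    Φ ((0, 0) : ℕ × ℕ) f = Polynomial.C f :=
  free_of (fun h => by have : 1 ≤ 0 := h.1; omega) hf

/-- A cochain without `t_1 ^ (p ^ 3)` in the coefficients has no coefficients. -/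
theorem Vr_of_free {s : ℕ} {N : ℤ} (hN : N ≤ 2 + p + p ^ 2 + p ^ 3 + p ^ 4) {f : KP p}
    (hf : f ∈ KK p 5 (lift A7) s N) (h0 : Φ ((0, 0) : ℕ × ℕ) f = Polynomial.C f) :
    f ∈ supported (ZMod p) (Vr s) := by
  have hp := (Fact.out : p.Prime).two_le
  have h1 := coeff_Φ_supported ((0, 0) : ℕ × ℕ) (KI_supported hp hN hf) 0
  rw [h0, Polynomial.coeff_C_zero] at h1
  refine supported_mono ?_ h1
  rintro ⟨b, n⟩ ⟨⟨h2, h3⟩, h4⟩
  refine ⟨?_, h2⟩
  dsimp only at h3 ⊢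
  by_contra hb
  obtain rfl : b = 0 := by omega
  exact h4 (by rw [h3 rfl]; rfl)

theorem Ch_Vl {s N : ℕ} {z : KP p} (hz : z ∈ Ch p s N) : z ∈ supported (ZMod p) (Vl s) :=
  (mem_Ch.1 hz).2

theorem smul_neg_one_Bc {s N k : ℕ} {z : KP p} (h : (-1 : ℤ) ^ k • z ∈ Bc p s N) :
    z ∈ Bc p s N := by
  rcases Nat.even_or_odd k with hk | hk
  · rwa [hk.neg_one_pow, one_smul] at h
  · rw [hk.neg_one_pow, neg_smul, one_smul] at h
    simpa using Submodule.neg_mem _ h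

/-- The field `G2`. -/
theorem G2_of (hp5 : 5 ≤ p) (hV : Van p (2 * p - 2) (2 + p + p ^ 2))
    (hE : EI p 5 A7 (2 * p - 1) (2 + p + p ^ 2 + p ^ 3 + p ^ 4)) : X.G2 p := by
  have hp := (Fact.out : p.Prime).two_le
  obtain ⟨r, hr⟩ : ∃ r, 2 * p = r + 3 := ⟨2 * p - 3, by omega⟩
  have e1 : 2 * p - 1 = r + 2 := by omega
  have e2 : 2 * p - 2 = r + 1 := by omega
  rw [e2] at hV
  rw [e1] at hE
  intro z hz hB
  rw [e1] at hz ⊢
  rw [hr] at hB
  have hI := lift_ok A7_val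
  have hN₀ : ((ee p + 1 : ℕ) : ℤ) = 2 + p + p ^ 2 + p ^ 3 := by
    rw [ee]; push_cast; ring
  have hp4 : (0 : ℤ) ≤ (p : ℤ) ^ 4 := by positivity
  have hp3 : (0 : ℤ) ≤ (p : ℤ) ^ 3 := by positivity
  have hq : (5 : ℤ) ≤ p := by exact_mod_cast hp5
  obtain ⟨-, q1, q2, -, -⟩ := pows hp5
  -- weights are small
  have hwt5 : wt p 5 = 1 + p + p ^ 2 + p ^ 3 + p ^ 4 + p ^ 5 := by simp [wt, sum_range_succ]
  have hp1 : ee p + 1 < wt p 5 := by
    rw [hwt5, ee]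
    have : 2 ^ 4 ≤ p ^ 4 := Nat.pow_le_pow_left hp 4
    nlinarith [Nat.zero_le (p ^ 5)]
  have hp2 : ee p + 1 + p ^ 4 < wt p 5 := by
    rw [hwt5, ee]
    have : 2 ^ 5 ≤ p ^ 5 := Nat.pow_le_pow_left hp 5
    nlinarith [Nat.zero_le (p ^ 4)]
  -- multiplication on the other side
  have hsw := switch (k := 4) hz
  have hzx : z * xi p 4 (r + 2) ∈ Bc p (r + 3) (ee p + 1 + p ^ 4) := by
    have h1 := Submodule.sub_mem _ hsw hB
    rw [show xi p 4 0 * sh p z + (-1 : ZMod p) ^ (r + 2 + 1) • (z * xi p 4 (r + 2)) -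
      X (0, 0) ^ p ^ 4 * sh p z = (-1 : ZMod p) ^ (r + 2 + 1) • (z * xi p 4 (r + 2)) by
      rw [xi]; abel, neg_one_smul_pow] at h1
    exact smul_neg_one_Bc h1
  obtain ⟨y₀, hy₀, hy₀'⟩ := hzx
  obtain ⟨hz1, hz2⟩ := Submodule.mem_inf.1 hz
  rw [LinearMap.mem_ker] at hz2
  have hzl := Ch_Vl hz1
  have hyl := Ch_Vl hy₀
  have hz3 : dd p (lift A7) (r + 2) (rv p (r + 2) z) = 0 := by
    have h1 := rv_cob (lift A7) hzl
    rw [hz2, map_zero] at h1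
    rcases Nat.even_or_odd (r + 2 + 1) with hk | hk
    · rw [hk.neg_one_pow, one_smul] at h1; exact h1.symm
    · rw [hk.neg_one_pow, neg_smul, one_smul] at h1; exact neg_eq_zero.1 h1.symm
  have hy3 : (-1 : ℤ) ^ (r + 2 + 1) • dd p (lift A7) (r + 2) (rv p (r + 2) y₀) =
      X (1, 0) ^ p ^ 4 * ph p (lift A7) 0 (rv p (r + 2) z) := by
    have h1 := rv_cob (lift A7) hyl
    rw [hy₀', map_mul, rv_id (lift A7) hzl, xi, map_pow, rv_X, rf_le (by dsimp only; omega)] at h1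
    rw [← h1, mul_comm]
    congr 3
    rw [Prod.mk.injEq]
    exact ⟨by dsimp only; omega, rfl⟩
  set y : KP p := -((-1 : ℤ) ^ (r + 2 + 1) • rv p (r + 2) y₀) with hy
  have hzK : rv p (r + 2) z ∈ KK p 5 (lift A7) (r + 2) (2 + p + p ^ 2 + p ^ 3 : ℤ) := by
    have := rv_mem (I := lift A7) hp1 hz1
    rwa [hN₀] at this
  have hyK : y ∈ KK p 5 (lift A7) (r + 2) (2 + p + p ^ 2 + p ^ 3 + p * (p : ℤ) ^ 3 : ℤ) := by
    have := rv_mem (I := lift A7) hp2 hy₀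
    rw [Nat.cast_add, hN₀] at this
    refine neg_mem (zsmul_mem ?_ _)
    rw [show (2 + p + p ^ 2 + p ^ 3 + p * (p : ℤ) ^ 3 : ℤ) =
      2 + p + p ^ 2 + p ^ 3 + ((p ^ 4 : ℕ) : ℤ) by push_cast; ring]
    exact this
  have hyf : Φ ((0, 0) : ℕ × ℕ) y = Polynomial.C y :=
    Vr_free (neg_mem (zsmul_mem (S := Subalgebra (ZMod p) (KP p)) (rv_supported hyl) _))
  have hcell := (top_inst (p := p) hI).cell (s := r) (N₀ := 2 + p + p ^ 2 + p ^ 3) (m := p)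
    (by ring_nf; exact le_rfl) (by linarith) (Vr_free (rv_supported hzl)) hyf hzK hyK
    (by omega) ?_ ?_ ?_
  · obtain ⟨g, hg, hgf, hg'⟩ := hcell
    have hgr := Vr_of_free (by linarith) hg hgf
    have hgN : g ∈ KK p 5 (lift A7) (r + 1) ((ee p + 1 : ℕ) : ℤ) := by rw [hN₀]; exact hg
    have hgC := rv_mem' hgN hgr
    have h1 := rv_cob (lift A7) (Ch_Vl hgC)
    rw [rv_rv] at h1
    change dd p (lift A7) (r + 1) g = _ at hg'
    rw [hg', ← map_zsmul] at h1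
    have h2 := rv_inj _ h1
    refine smul_neg_one_Bc (k := r + 1 + 1) ?_
    exact ⟨rv p (r + 1) g, hgC, h2⟩
  · change dd p (lift A7) (r + 2) _ = 0
    rw [map_add, dd_mul_x, hz3, mul_zero, zero_add, hy, map_neg, map_zsmul, hy3,
      show lift A7 1 + 1 = 4 from rfl, add_neg_cancel]
  · have := hE hI
    rwa [show (2 + p + p ^ 2 + p ^ 3 + p ^ 4 : ℤ) = 2 + p + p ^ 2 + p ^ 3 + p * (p : ℤ) ^ 3 by
      ring] at this
  · intro g hg hgf hgd
    have hN2 : (2 + p + p ^ 2 + p ^ 3 - (p : ℤ) ^ 3 : ℤ) = ((2 + p + p ^ 2 : ℕ) : ℤ) := by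
      push_cast; ring
    rw [hN2] at hg ⊢
    have hgr := Vr_of_free (by push_cast; linarith) hg hgf
    have hgC := rv_mem' hg hgr
    have h1 := rv_cob (lift A7) (Ch_Vl hgC)
    change dd p (lift A7) (r + 1) g = 0 at hgd
    rw [rv_rv, hgd, smul_zero] at h1
    have h2 : cob p (r + 1) (rv p (r + 1) g) = 0 := rv_inj _ (by rw [h1, map_zero])
    obtain ⟨u, hu, hu'⟩ := hV (Submodule.mem_inf.2 ⟨hgC, LinearMap.mem_ker.2 h2⟩)
    have h3 := rv_cob (lift A7) (Ch_Vl hu)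
    rw [hu', rv_rv] at h3
    have hwt : 2 + p + p ^ 2 < wt p 5 := by
      rw [hwt5]
      have : 2 ^ 3 ≤ p ^ 3 := Nat.pow_le_pow_left hp 3
      nlinarith [Nat.zero_le (p ^ 4), Nat.zero_le (p ^ 5)]
    refine ⟨(-1 : ℤ) ^ (r + 1) • rv p r u, zsmul_mem (rv_mem hwt hu) _, ?_, ?_⟩
    · exact Vr_free (zsmul_mem (S := Subalgebra (ZMod p) (KP p)) (rv_supported (Ch_Vl hu)) _)
    · change dd p (lift A7) r _ = g
      rw [map_zsmul, ← h3]

end Vale.Agent.P257.G
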