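import Vale.Agent.P257.G.QIso
import Vale.Agent.P257.G.Inst

/-! Change of rings: the cobar complex of the sub Hopf algebra of profile `(3, 2, 1)` and the
complex of `P` with coefficients in the corresponding left coideal. -/

namespace Vale.Agent.P257.G

open MvPolynomial Finset Vale.Agent.P257.Q.PC Vale.Agent.P257.X Vale.Agent.P257.B

variable {p : ℕ} [Fact p.Prime]

/-- The inclusion is a quasi-isomorphism. -/
def QI (p m m' : ℕ) [Fact p.Prime] (I : ℕ → ℕ) : Prop :=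
  ∀ h : Ok I, Cpx.QIso (KI p m I h) (KI p m' I h) (AddMonoidHom.id (KP p))

theorem QI_step {m m' : ℕ} (hmm : m ≤ m') {I : ℕ → ℕ} (hI : Ok I) {n : ℕ} (hn : Pr I n)
    (hm : n < m) (h : QI p m m' I) : QI p m m' (B.up I n) := by
  intro hI'
  have h1 := Cpx.QIso.ker (der hI hn hm) (der hI hn (hm.trans_le hmm))
    (Fact.out (p := p.Prime)).one_le (h hI) (fun _ => rfl)
  exact Cpx.QIso.of_iso (iso_up hI hn hm) (iso_up hI hn (hm.trans_le hmm)) h1
    (fun s N f hf => KK.mono hf hmm le_rfl) (fun _ => rfl)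

/-- Cochains of degree `(0, 0)` are constants. -/
theorem K_zero {m m' : ℕ} {I : ℕ → ℕ} {f : KP p} (hf : f ∈ KK p m I 0 0) : f ∈ KK p m' I 0 0 := by
  obtain ⟨h1, h2⟩ := mem_KK_iff.1 hf
  refine mem_KK_iff.2 ⟨h1, ?_⟩
  refine hom_supported (wz_nonneg I) h1 h2 fun x _ hw => ?_
  exfalso
  have h3 : 0 < wI p I x := by
    unfold wI
    refine Nat.mul_pos (pow_pos (Fact.out : p.Prime).pos _) ?_
    unfold wt
    exact lt_of_lt_of_le one_pos (single_le_sum (f := fun i => p ^ i) (fun _ _ => Nat.zero_le _)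
      (mem_range.2 (Nat.succ_pos _)))
  have h4 : wz p I x = wI p I x := rfl
  omega

/-- The base case. -/
theorem QI_base {m m' : ℕ} (hmm : m ≤ m')
    (hm : ∀ s N, ¬(s = 0 ∧ N = 0) → ∀ h : Ok (fun _ => 0), (KI p m (fun _ => 0) h).Ex s N)
    (hm' : ∀ s N, ¬(s = 0 ∧ N = 0) → ∀ h : Ok (fun _ => 0), (KI p m' (fun _ => 0) h).Ex s N) :
    QI p m m' (fun _ => 0) := by
  intro h
  refine ⟨⟨fun s N f hf => KK.mono hf hmm le_rfl, fun s N f hf => rfl⟩, ?_, ?_⟩
  · intro s N z hz hb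
    by_cases h0 : s = 0 ∧ N = 0
    · obtain ⟨rfl, rfl⟩ := h0
      exact hb
    · exact hm s N h0 h z hz
  · intro s N z' hz'
    by_cases h0 : s = 0 ∧ N = 0
    · obtain ⟨rfl, rfl⟩ := h0
      refine ⟨z', ⟨K_zero hz'.1, hz'.2⟩, ?_⟩
      change z' - z' = 0
      exact sub_self _
    · refine ⟨0, Cpx.Z.zero _ _, ?_⟩
      rw [map_zero, sub_zero]
      exact hm' s N h0 h z' hz'

theorem val_zero : Val (fun _ => 0) := fun a b h => by simpa using h

theorem QI_A0 {m : ℕ} (hmm : 3 ≤ m)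
    (hac : ∀ m s N, ¬(s = 0 ∧ N = 0) → ∀ h : Ok (fun _ => 0), (KI p m (fun _ => 0) h).Ex s N) :
    QI p 3 m (lift A0) := by
  have hb : QI p 3 m (fun _ => 0) := QI_base hmm (hac 3) (hac m)
  have key : ∀ (I : ℕ → ℕ) (n : ℕ), Ok I → Pr I n → n < 3 → QI p 3 m I → Ok (B.up I n) ∧
      QI p 3 m (B.up I n) := fun I n h1 h2 h3 h4 => ⟨up_ok h1 h2, QI_step hmm h1 h2 h3 h4⟩
  obtain ⟨o1, q1⟩ := key (fun _ => 0) 0 (fun a b => Nat.zero_le _)
    (fun n' h => by dsimp only; omega) (by norm_num) hb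
  obtain ⟨o2, q2⟩ := key _ 1 o1 (fun n' h => by simp only [B.up]; split_ifs <;> omega)
    (by norm_num) q1
  obtain ⟨o3, q3⟩ := key _ 0 o2 (fun n' h => by simp only [B.up]; split_ifs <;> omega)
    (by norm_num) q2
  obtain ⟨o4, q4⟩ := key _ 2 o3 (fun n' h => by simp only [B.up]; split_ifs <;> omega)
    (by norm_num) q3
  obtain ⟨o5, q5⟩ := key _ 1 o4 (fun n' h => by simp only [B.up]; split_ifs <;> omega)
    (by norm_num) q4
  obtain ⟨o6, q6⟩ := key _ 0 o5 (fun n' h => by simp only [B.up]; split_ifs <;> omega)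
    (by norm_num) q5
  have e : B.up (B.up (B.up (B.up (B.up (B.up (fun _ => 0) 0) 1) 0) 2) 1) 0 = lift A0 := by
    funext a
    simp only [B.up, lift, A0]
    split_ifs <;> omega
  rwa [e] at q6

/-- Change of rings. -/
theorem EI_change {m : ℕ} (hmm : 3 ≤ m)
    (hac : ∀ m s N, ¬(s = 0 ∧ N = 0) → ∀ h : Ok (fun _ => 0), (KI p m (fun _ => 0) h).Ex s N)
    {s : ℕ} {N : ℤ} (h : EI p 3 A0 s N) : EI p m A0 s N := fun hI =>
  (QI_A0 hmm hac hI).ex (h hI)

end Vale.Agent.P257.G
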