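import Vale.Agent.P257.B.StarFin
import Vale.Agent.P257.B.Phi
import Vale.Agent.P257.G.G2

/-! The field `G2`. -/

namespace Vale.Agent.P257.G

open Vale.Agent.P257.B

theorem lemA {p : ℕ} [Fact p.Prime] (hp : 11 ≤ p) : LemA p := fun _ _ _ hz hX' h =>
  lemmaA0 (by omega) hO (exK6 hp) hz hX' h

theorem G2 {p : ℕ} [Fact p.Prime] (hp : 11 ≤ p) : X.G2 p :=
  G2_of_STAR hp (star_all hp (lemA hp))

end Vale.Agent.P257.G
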