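import Vale.Agent.P257.X.Abs

/-! Quasi-isomorphisms pass to kernels of derivation-like operators. -/

namespace Vale.Agent.P257.X.Cpx

variable {A A' : Type*} [AddCommGroup A] [AddCommGroup A']

/-- A map of complexes. -/
structure Mor (C : Cpx A) (C' : Cpx A') (ι : A →+ A') : Prop where
  mem : ∀ s N, ∀ f ∈ C.K s N, ι f ∈ C'.K s N
  comm : ∀ s N, ∀ f ∈ C.K s N, ι (C.d s f) = C'.d s (ι f)

/-- `ι` is injective on cohomology in cohomological degree `s`. -/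
def Inj (C : Cpx A) (C' : Cpx A') (ι : A →+ A') (s : ℕ) : Prop :=
  ∀ N z, C.Z s N z → C'.B s N (ι z) → C.B s N z

/-- `ι` is surjective on cohomology in cohomological degree `s`. -/
def Sur (C : Cpx A) (C' : Cpx A') (ι : A →+ A') (s : ℕ) : Prop :=
  ∀ N z', C'.Z s N z' → ∃ z, C.Z s N z ∧ C'.B s N (z' - ι z)

/-- A quasi-isomorphism. -/
structure QIso (C : Cpx A) (C' : Cpx A') (ι : A →+ A') : Prop extends Mor C C' ι where
  inj : ∀ s, Inj C C' ι s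
  sur : ∀ s, Sur C C' ι s

/-- If `C` is exact, so is `C'`. -/
theorem QIso.ex {C : Cpx A} {C' : Cpx A'} {ι : A →+ A'} (h : QIso C C' ι) {s : ℕ} {N : ℤ}
    (hE : C.Ex s N) : C'.Ex s N := by
  intro z' hz'
  obtain ⟨z, hz, hb⟩ := h.sur s N z' hz'
  have hb' := hE z hz
  cases s with
  | zero =>
    simp only [B] at hb' hb ⊢
    rw [hb', map_zero, sub_zero] at hb
    exact hb
  | succ s =>
    obtain ⟨g, hg, rfl⟩ := hb'
    obtain ⟨g', hg', hg2⟩ := hb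
    refine ⟨g' + ι g, add_mem hg' (h.mem _ _ _ hg), ?_⟩
    rw [map_add, hg2, ← h.comm _ _ _ hg, sub_add_cancel]

/-- `K` is the kernel of the surjective map `φ : C → L`, which lowers the degree by `a`. -/
structure Fib (K C L : Cpx A) (a : ℤ) (φ : A →+ A) : Prop where
  mem : ∀ s N, ∀ f ∈ C.K s N, φ f ∈ L.K s (N - a)
  comm : ∀ s N, ∀ f ∈ C.K s N, φ (C.d s f) = L.d s (φ f)
  surj : ∀ s N, ∀ f ∈ L.K s (N - a), ∃ g ∈ C.K s N, φ g = f
  ker : ∀ s N f, f ∈ K.K s N ↔ f ∈ C.K s N ∧ φ f = 0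
  dK : ∀ s N, ∀ f ∈ K.K s N, K.d s f = C.d s f

theorem Fib.liftB {K C L : Cpx A} {a : ℤ} {φ : A →+ A} (h : Fib K C L a φ) {s : ℕ} {N : ℤ}
    {f : A} (hf : L.B s (N - a) f) : ∃ g, C.B s N g ∧ φ g = f := by
  cases s with
  | zero => exact ⟨0, B.zero _ _, by rw [map_zero]; exact hf.symm⟩
  | succ s =>
    obtain ⟨g, hg, rfl⟩ := hf
    obtain ⟨g', hg', rfl⟩ := h.surj _ _ _ hg
    exact ⟨C.d s g', ⟨g', hg', rfl⟩, h.comm _ _ _ hg'⟩

theorem Fib.mapZ {K C L : Cpx A} {a : ℤ} {φ : A →+ A} (h : Fib K C L a φ) {s : ℕ} {N : ℤ}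
    {f : A} (hf : f ∈ C.K s N) (hf' : φ (C.d s f) = 0) : L.Z s (N - a) (φ f) :=
  ⟨h.mem _ _ _ hf, by rw [← h.comm _ _ _ hf, hf']⟩

theorem Fib.mapB {K C L : Cpx A} {a : ℤ} {φ : A →+ A} (h : Fib K C L a φ) {s : ℕ} {N : ℤ}
    {f : A} (hf : C.B s N f) : L.B s (N - a) (φ f) := by
  cases s with
  | zero => simp only [B] at hf ⊢; rw [hf, map_zero]
  | succ s =>
    obtain ⟨g, hg, rfl⟩ := hf
    exact ⟨φ g, h.mem _ _ _ hg, (h.comm _ _ _ hg).symm⟩

section Five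

variable {K C L : Cpx A} {K' C' L' : Cpx A'} {a : ℤ} {φ : A →+ A} {φ' : A' →+ A'} {ι : A →+ A'}
  (h : Fib K C L a φ) (h' : Fib K' C' L' a φ') (hι : QIso C C' ι) (hc : ∀ f, ι (φ f) = φ' (ι f))
include h h' hι hc

theorem five_inj (s : ℕ) (hL : ∀ s', s = s' + 1 → Inj L L' ι s') : Inj K K' ι s := by
  intro N z hz hb
  have hzK := (h.ker _ _ _).1 hz.1
  have hzd : C.d s z = 0 := by rw [← h.dK _ _ _ hz.1, hz.2]
  cases s with
  | zero =>
    simp only [B] at hb ⊢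
    exact hι.inj 0 N z ⟨hzK.1, hzd⟩ hb
  | succ s =>
    obtain ⟨g', hg', hg2⟩ := hb
    rw [h'.dK _ _ _ hg'] at hg2
    have hg'K := (h'.ker _ _ _).1 hg'
    obtain ⟨g, hg, hgd⟩ := hι.inj (s + 1) N z ⟨hzK.1, hzd⟩ ⟨g', hg'K.1, hg2⟩
    obtain ⟨w, hw, hwb⟩ := hι.sur s N (ι g - g') ⟨sub_mem (hι.mem _ _ _ hg) hg'K.1, by
      rw [map_sub, ← hι.comm _ _ _ hg, hgd, hg2, sub_self]⟩
    have hg1 : g - w ∈ C.K s N := sub_mem hg hw.1
    have hg1d : C.d s (g - w) = z := by rw [map_sub, hgd, hw.2, sub_zero]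
    have hLz : L.Z s (N - a) (φ (g - w)) := h.mapZ hg1 (by rw [hg1d, hzK.2])
    have e1 : ι (φ (g - w)) = φ' (ι g - g' - ι w) := by
      rw [hc, map_sub ι, map_sub φ' (ι g - g'), map_sub φ' (ι g) g', hg'K.2, sub_zero, map_sub]
    have hLb : L'.B s (N - a) (ι (φ (g - w))) := by
      rw [e1]; exact h'.mapB hwb
    obtain ⟨c, hc1, hc2⟩ := h.liftB (hL s rfl _ _ hLz hLb)
    have hcK := hc1.z
    have hfin : g - w - c ∈ K.K s N := (h.ker _ _ _).2 ⟨sub_mem hg1 hcK.1, by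
      rw [map_sub, hc2, sub_self]⟩
    exact ⟨g - w - c, hfin, by rw [h.dK _ _ _ hfin, map_sub, hcK.2, hg1d, sub_zero]⟩

theorem five_sur (s : ℕ) (hL : Inj L L' ι s) (hL' : ∀ s', s = s' + 1 → Sur L L' ι s') :
    Sur K K' ι s := by
  intro N z' hz'
  have hz'K := (h'.ker _ _ _).1 hz'.1
  have hz'd : C'.d s z' = 0 := by rw [← h'.dK _ _ _ hz'.1, hz'.2]
  obtain ⟨z, hz, hb⟩ := hι.sur s N z' ⟨hz'K.1, hz'd⟩
  have e1 : ι (φ z) = φ' (-(z' - ι z)) := by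
    rw [hc, map_neg, map_sub, hz'K.2, zero_sub, neg_neg]
  have hLz : L.Z s (N - a) (φ z) := h.mapZ hz.1 (by rw [hz.2, map_zero])
  obtain ⟨b, hb1, hb2⟩ := h.liftB (hL _ _ hLz (by rw [e1]; exact h'.mapB hb.neg))
  have hz1K : z - b ∈ K.K s N := (h.ker _ _ _).2 ⟨sub_mem hz.1 hb1.z.1, by
    rw [map_sub, hb2, sub_self]⟩
  have hz1 : K.Z s N (z - b) := ⟨hz1K, by rw [h.dK _ _ _ hz1K, map_sub, hz.2, hb1.z.2, sub_zero]⟩
  have hιb : C'.B s N (ι b) := by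
    cases s with
    | zero => simp only [B] at hb1 ⊢; rw [hb1, map_zero]
    | succ s =>
      obtain ⟨g, hg, rfl⟩ := hb1
      exact ⟨ι g, hι.mem _ _ _ hg, (hι.comm _ _ _ hg).symm⟩
  have hb3 : C'.B s N (z' - ι (z - b)) := by
    have : z' - ι (z - b) = z' - ι z + ι b := by rw [map_sub]; abel
    rw [this]; exact hb.add hιb
  have hιz1 : φ' (ι (z - b)) = 0 := by rw [← hc, ((h.ker _ _ _).1 hz1K).2, map_zero]
  cases s with
  | zero =>
    refine ⟨z - b, hz1, ?_⟩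
    simp only [B] at hb3 ⊢
    exact hb3
  | succ s =>
    obtain ⟨g', hg', hg2⟩ := hb3
    have hLz' : L'.Z s (N - a) (φ' g') := h'.mapZ hg' (by
      rw [hg2, map_sub, hz'K.2, hιz1, sub_self])
    obtain ⟨l, hl, hlb⟩ := hL' s rfl _ _ hLz'
    obtain ⟨c, hc1, rfl⟩ := h.surj _ _ _ hl.1
    obtain ⟨b', hb1', hb2'⟩ := h'.liftB hlb
    have hdc : C.d s c ∈ K.K (s + 1) N := (h.ker _ _ _).2 ⟨C.d_mem _ _ _ hc1, by
      rw [h.comm _ _ _ hc1, hl.2]⟩
    have hfin : g' - ι c - b' ∈ K'.K s N := (h'.ker _ _ _).2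
      ⟨sub_mem (sub_mem hg' (hι.mem _ _ _ hc1)) hb1'.z.1, by
        rw [map_sub, map_sub, hb2', ← hc, sub_self]⟩
    refine ⟨z - b + C.d s c, ⟨add_mem hz1K hdc, ?_⟩, g' - ι c - b', hfin, ?_⟩
    · rw [map_add, hz1.2, h.dK _ _ _ hdc, C.d_d _ _ _ hc1, add_zero]
    · rw [h'.dK _ _ _ hfin, map_sub, map_sub, hb1'.z.2, hg2, ← hι.comm _ _ _ hc1, map_add]
      abel

end Five

section Der

variable {C : Cpx A} {C' : Cpx A'} {p : ℕ} {e : ℤ} {D : A →+ A} {D' : A' →+ A'}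

/-- The kernel of `D ^ (p - 1)`. -/
def KerW (C : Cpx A) {p : ℕ} {e : ℤ} {D : A →+ A} (h : Der C p e D) : Cpx A where
  K s N :=
    { carrier := {f | f ∈ C.K s N ∧ D^[p - 1] f = 0}
      add_mem' := fun {f g} hf hg => ⟨add_mem hf.1 hg.1, by
        rw [iterate_map_add, hf.2, hg.2, add_zero]⟩
      zero_mem' := ⟨zero_mem _, iterate_map_zero _ _⟩
      neg_mem' := fun {f} hf => ⟨neg_mem hf.1, by rw [iterate_map_neg, hf.2, neg_zero]⟩ }
  d := C.d
  d_mem s N f hf := ⟨C.d_mem _ _ _ hf.1, by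
    rw [h.iter_comm _ hf.1, hf.2, map_zero]⟩
  d_d s N f hf := C.d_d _ _ _ hf.1

theorem mem_kerW (h : Der C p e D) {s N} {f : A} :
    f ∈ (C.KerW h).K s N ↔ f ∈ C.K s N ∧ D^[p - 1] f = 0 := Iff.rfl

/-- The iterate of an additive map, as an additive map. -/
def iterHom (D : A →+ A) (k : ℕ) : A →+ A where
  toFun := D^[k]
  map_zero' := iterate_map_zero _ _
  map_add' := fun _ _ => iterate_map_add _ _ _ _

theorem Der.fib1 (h : Der C p e D) (hp : 1 ≤ p) : Fib (C.Ker h) C (C.KerW h) e D where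
  mem s N f hf := ⟨h.mem _ _ _ hf, by rw [iter_pred' D hp]; exact h.pow _ _ _ hf⟩
  comm s N f hf := h.comm _ _ _ hf
  surj s N f hf := by
    obtain ⟨g, hg, hg'⟩ := h.ex1 _ _ _ hf.1 hf.2
    exact ⟨g, by rwa [sub_add_cancel] at hg, hg'⟩
  ker s N f := Iff.rfl
  dK s N f _ := rfl

theorem Der.fib2 (h : Der C p e D) (hp : 1 ≤ p) :
    Fib (C.KerW h) C (C.Ker h) ((p - 1 : ℤ) * e) (iterHom D (p - 1)) where
  mem s N f hf := by
    have hm := h.iter_mem (p - 1) hf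
    rw [show ((p - 1 : ℕ) : ℤ) = (p - 1 : ℤ) by push_cast [Nat.cast_sub hp]; ring] at hm
    exact ⟨hm, by
      change D (D^[p - 1] f) = 0
      rw [iter_pred D hp]; exact h.pow _ _ _ hf⟩
  comm s N f hf := h.iter_comm _ hf
  surj s N f hf := by
    obtain ⟨g, hg, hg'⟩ := h.ex2 _ _ _ hf.1 hf.2
    exact ⟨g, by rwa [sub_add_cancel] at hg, hg'⟩
  ker s N f := Iff.rfl
  dK s N f _ := rfl

theorem iterHom_comm {ι : A →+ A'} (hc : ∀ f, ι (D f) = D' (ι f)) (k : ℕ) (f : A) :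
    ι (iterHom D k f) = iterHom D' k (ι f) := by
  change ι (D^[k] f) = D'^[k] (ι f)
  induction k with
  | zero => rfl
  | succ k ih => rw [Function.iterate_succ_apply', Function.iterate_succ_apply', hc, ih]

/-- A quasi-isomorphism commuting with derivations restricts to a quasi-isomorphism of the
kernels. -/
theorem QIso.ker (h : Der C p e D) (h' : Der C' p e D') (hp : 1 ≤ p) {ι : A →+ A'}
    (hι : QIso C C' ι) (hc : ∀ f, ι (D f) = D' (ι f)) : QIso (C.Ker h) (C'.Ker h') ι := by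
  have hq := iterHom_comm hc (p - 1)
  have hinj : ∀ s, Inj (C.Ker h) (C'.Ker h') ι s ∧ Inj (C.KerW h) (C'.KerW h') ι s := by
    intro s
    induction s with
    | zero =>
      exact ⟨five_inj (h.fib1 hp) (h'.fib1 hp) hι hc 0 (by intro s' hs'; omega),
        five_inj (h.fib2 hp) (h'.fib2 hp) hι hq 0 (by intro s' hs'; omega)⟩
    | succ s ih =>
      exact ⟨five_inj (h.fib1 hp) (h'.fib1 hp) hι hc (s + 1) (by
          intro s' hs'; obtain rfl : s = s' := by omega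
          exact ih.2),
        five_inj (h.fib2 hp) (h'.fib2 hp) hι hq (s + 1) (by
          intro s' hs'; obtain rfl : s = s' := by omega
          exact ih.1)⟩
  have hsur : ∀ s, Sur (C.Ker h) (C'.Ker h') ι s ∧ Sur (C.KerW h) (C'.KerW h') ι s := by
    intro s
    induction s with
    | zero =>
      exact ⟨five_sur (h.fib1 hp) (h'.fib1 hp) hι hc 0 (hinj 0).2 (by intro s' hs'; omega),
        five_sur (h.fib2 hp) (h'.fib2 hp) hι hq 0 (hinj 0).1 (by intro s' hs'; omega)⟩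
    | succ s ih =>
      exact ⟨five_sur (h.fib1 hp) (h'.fib1 hp) hι hc (s + 1) (hinj (s + 1)).2 (by
          intro s' hs'; obtain rfl : s = s' := by omega
          exact ih.2),
        five_sur (h.fib2 hp) (h'.fib2 hp) hι hq (s + 1) (hinj (s + 1)).1 (by
          intro s' hs'; obtain rfl : s = s' := by omega
          exact ih.1)⟩
  exact
    { mem := fun s N f hf => ⟨hι.mem _ _ _ hf.1, by
        have : D f = 0 := hf.2
        change D' (ι f) = 0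
        rw [← hc, this, map_zero]⟩
      comm := fun s N f hf => hι.comm _ _ _ hf.1
      inj := fun s => (hinj s).1
      sur := fun s => (hsur s).1 }

/-- Transport of a quasi-isomorphism along isomorphisms. -/
theorem QIso.of_iso {C₁ : Cpx A} {C₁' : Cpx A'} {C₂ : Cpx A} {C₂' : Cpx A'} {ι κ : A →+ A'}
    {e : A →+ A} {e' : A' →+ A'} (he : Iso C₁ C₂ e) (he' : Iso C₁' C₂' e')
    (hκ : QIso C₂ C₂' κ) (hm : ∀ s N, ∀ f ∈ C₁.K s N, ι f ∈ C₁'.K s N)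
    (hc : ∀ f, e' (ι f) = κ (e f)) : QIso C₁ C₁' ι where
  mem := hm
  comm s N f hf := by
    apply he'.inj
    rw [hc, he.comm _ _ _ hf, hκ.comm _ _ _ (he.mem _ _ _ hf), he'.comm _ _ _ (hm _ _ _ hf), hc]
  inj s N z hz hb := by
    have h1 : C₂'.B s N (κ (e z)) := by
      rw [← hc]; exact he'.b_iff.2 hb
    exact he.b_iff.1 (hκ.inj s N (e z) ((he.z_iff hz.1).2 hz) h1)
  sur s N z' hz' := by
    obtain ⟨w, hw, hwb⟩ := hκ.sur s N (e' z') ((he'.z_iff hz'.1).2 hz')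
    obtain ⟨z, hz, rfl⟩ := he.surj _ _ _ hw.1
    refine ⟨z, (he.z_iff hz).1 hw, he'.b_iff.1 ?_⟩
    rwa [map_sub, hc]

end Der

end Vale.Agent.P257.X.Cpx
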